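import Vale.Agent.P371.Der
import Vale.Agent.P135.BU

/-!
General tools: a Brouwer type zero, flows with parameters, positivity of matrix flows.
-/

namespace Vale.Agent.P371

open Matrix Set Metric Filter
open scoped ComplexOrder Matrix.Norms.L2Operator Topology NNReal

theorem exists_add_eq_zero {V : Type} [NormedAddCommGroup V] [NormedSpace ℝ V]
    [FiniteDimensional ℝ V] (B : V → V) (hB : Continuous B) {M : ℝ} (hM : ∀ x, ‖B x‖ ≤ M) :
    ∃ x, x + B x = 0 := by
  have hc : Continuous fun q : V × ℝ => q.2 • B (q.2⁻¹ • q.1) := by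
    refine continuous_iff_continuousAt.2 fun q => ?_
    by_cases h : q.2 = 0
    · have : Tendsto (fun q' : V × ℝ => ‖q'.2‖ * M) (𝓝 q) (𝓝 (‖q.2‖ * M)) :=
        (Continuous.tendsto (by fun_prop) q)
      rw [ContinuousAt, h, zero_smul]
      rw [h, norm_zero, zero_mul] at this
      refine squeeze_zero_norm (fun q' => ?_) this
      rw [norm_smul]
      exact mul_le_mul_of_nonneg_left (hM _) (norm_nonneg _)
    · exact continuousAt_snd.smul (hB.continuousAt.comp
        ((continuousAt_snd.inv₀ h).smul continuousAt_fst))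
  obtain ⟨q, hq, h0⟩ := Vale.Agent.P135.bu_real (V := V × ℝ) (W := V) (by simp)
    (fun q => q.1 + q.2 • B (q.2⁻¹ • q.1)) (continuous_fst.add hc)
    (fun q => by simp [add_comm])
  by_cases h : q.2 = 0
  · have h1 : q.1 = 0 := by simpa [h] using h0
    have : q = 0 := Prod.ext h1 h
    simp [this] at hq
  · refine ⟨q.2⁻¹ • q.1, ?_⟩
    have := congrArg (fun v => q.2⁻¹ • v) h0
    simpa [smul_smul, inv_mul_cancel₀ h] using this

theorem exists_param_flow {P E : Type} [TopologicalSpace P] [NormedAddCommGroup E]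
    [NormedSpace ℝ E] [CompleteSpace E] (f : P → ℝ → E → E) {a b : ℝ} (hab : a ≤ b) (C L : ℝ≥0)
    (hlip : ∀ p t, LipschitzWith C (f p t)) (hb : ∀ p, ∀ t ∈ Icc a b, ∀ z, ‖f p t z‖ ≤ L)
    (hc : Continuous fun q : P × ℝ × E => f q.1 q.2.1 q.2.2) :
    ∃ Z : P → ℝ → E, (∀ p, Z p a = 0) ∧
      (∀ p, ∀ t ∈ Icc a b, HasDerivWithinAt (Z p) (f p t (Z p t)) (Icc a b) t) ∧
      (∀ p, ‖Z p b‖ ≤ L * (b - a)) ∧ Continuous fun p => Z p b := by
  have hpl : ∀ p, IsPicardLindelof (f p) (⟨a, le_rfl, hab⟩ : Icc a b) 0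
      (L * (b - a).toNNReal) 0 L C := fun p =>
    ⟨fun t _ => (hlip p t).lipschitzOnWith,
      fun z _ => (hc.comp (f := fun t : ℝ => (p, t, z)) (by fun_prop)).continuousOn,
      fun t ht z _ => hb p t ht z, by simp [max_eq_left (sub_nonneg.2 hab), hab]⟩
  choose Z h0 hZ using fun p => (hpl p).exists_eq_forall_mem_Icc_hasDerivWithinAt₀
  have hcont : ∀ p, ContinuousOn (Z p) (Icc a b) := fun p t ht => (hZ p t ht).continuousWithinAt
  have hr : ∀ p, ∀ t ∈ Ico a b, HasDerivWithinAt (Z p) (f p t (Z p t)) (Ici t) t := fun p t ht =>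
    (hZ p t (Ico_subset_Icc_self ht)).mono_of_mem_nhdsWithin (Icc_mem_nhdsGE_of_mem ht)
  refine ⟨Z, h0, hZ, fun p => ?_, continuous_iff_continuousAt.2 fun p₀ => ?_⟩
  · have := norm_image_sub_le_of_norm_deriv_right_le_segment (hcont p) (hr p)
      (fun t ht => hb p t (Ico_subset_Icc_self ht) _) b ⟨hab, le_rfl⟩
    rwa [show Z p a = 0 from h0 p, sub_zero] at this
  rw [ContinuousAt, Metric.tendsto_nhds]
  intro η hη
  have h1 : ∀ᶠ ε in 𝓝[>] (0 : ℝ), gronwallBound 0 C (0 + ε) (b - a) < η := by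
    have := (gronwallBound_continuous_ε 0 C (b - a)).tendsto 0
    rw [gronwallBound_ε0_δ0] at this
    simpa using (this.eventually (gt_mem_nhds hη)).filter_mono nhdsWithin_le_nhds
  obtain ⟨ε, hε1, hε⟩ := (h1.and self_mem_nhdsWithin).exists
  have hZc : Continuous fun t : ℝ => Z p₀ (projIcc a b hab t) :=
    (hcont p₀).comp_continuous (continuous_subtype_val.comp continuous_projIcc)
      fun t => (projIcc a b hab t).2
  have h2 : ∀ᶠ p in 𝓝 p₀, ∀ t ∈ Icc a b,
      dist (f p₀ t (Z p₀ (projIcc a b hab t))) (f p t (Z p₀ (projIcc a b hab t))) < ε := by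
    refine isCompact_Icc.eventually_forall_of_forall_eventually fun t _ => ?_
    have h3 : Continuous fun q : P × ℝ => dist (f p₀ q.2 (Z p₀ (projIcc a b hab q.2)))
        (f q.1 q.2 (Z p₀ (projIcc a b hab q.2))) :=
      (hc.comp (f := fun q : P × ℝ => (p₀, q.2, Z p₀ (projIcc a b hab q.2)))
        (continuous_const.prodMk (continuous_snd.prodMk (hZc.comp continuous_snd)))).dist
        (hc.comp (f := fun q : P × ℝ => (q.1, q.2, Z p₀ (projIcc a b hab q.2)))
          (continuous_fst.prodMk (continuous_snd.prodMk (hZc.comp continuous_snd))))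
    exact (h3.tendsto (p₀, t)).eventually (gt_mem_nhds (by simpa using hε))
  filter_upwards [h2] with p hp
  refine lt_of_le_of_lt (dist_le_of_approx_trajectories_ODE (v := f p) (hlip p) (hcont p) (hr p)
    (fun t _ => by simp) (hcont p₀) (hr p₀) (fun t ht => ?_) (by simp [h0]) b ⟨hab, le_rfl⟩) hε1
  have := hp t (Ico_subset_Icc_self ht)
  rw [projIcc_of_mem hab (Ico_subset_Icc_self ht)] at this
  exact this.le

variable {n : Type} [Fintype n] [DecidableEq n]

theorem isClosed_psd : IsClosed {A : Matrix n n ℂ | A.PosSemidef} := by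
  open scoped MatrixOrder in
  simpa only [nonneg_iff_posSemidef] using CStarAlgebra.isClosed_nonneg (A := Matrix n n ℂ)

theorem psd_of_deriv {Z B V : ℝ → Matrix n n ℂ} {a b C : ℝ}
    (hZ : ∀ t ∈ Icc a b, HasDerivWithinAt Z (B t * Z t + Z t * (B t)ᴴ + V t) (Icc a b) t)
    (hB : ∀ t ∈ Icc a b, ‖B t‖ ≤ C) (hV : ∀ t ∈ Icc a b, (V t).PosSemidef)
    (h0 : (Z a).PosSemidef) : ∀ t ∈ Icc a b, (Z t).PosSemidef := by
  set S := {A : Matrix n n ℂ | A.PosSemidef}
  have hS : S.Nonempty := ⟨0, PosSemidef.zero⟩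
  have hcont : ContinuousOn Z (Icc a b) := fun t ht => (hZ t ht).continuousWithinAt
  have key := le_gronwallBound_of_liminf_deriv_right_le (f := fun t => infDist (Z t) S)
    (f' := fun t => 2 * C * infDist (Z t) S) (δ := 0) (K := 2 * C) (ε := 0) (a := a) (b := b)
    ((continuous_infDist_pt S).comp_continuousOn hcont) (fun x hx r hr => ?_)
    (infDist_zero_of_mem (s := S) (x := Z a) h0).le (fun x _ => by simp)
  · intro t ht
    have := key t ht
    rw [gronwallBound_ε0_δ0] at this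
    exact (isClosed_psd.mem_iff_infDist_zero hS).2 (le_antisymm this infDist_nonneg)
  have hx' := Ico_subset_Icc_self hx
  obtain ⟨P, hP, hd⟩ := isClosed_psd.exists_infDist_eq_dist hS (Z x)
  have h1 : HasDerivAt (fun z : ℝ => (1 + (z - x) • B x) * P * (1 + (z - x) • (B x)ᴴ)
      + (z - x) • V x) (B x * P + P * (B x)ᴴ + V x) x := by
    have h2 : HasDerivAt (fun z : ℝ => z - x) 1 x := (hasDerivAt_id x).sub_const x
    refine (((((h2.smul_const (B x)).const_add 1).mul_const P).mul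
      ((h2.smul_const (B x)ᴴ).const_add 1)).add (h2.smul_const (V x))).congr_deriv ?_
    simp
  have h3 := ((hZ x hx').mono_of_mem_nhdsWithin (Icc_mem_nhdsGE_of_mem hx)).sub h1.hasDerivWithinAt
  have h4 : ‖B x * Z x + Z x * (B x)ᴴ + V x - (B x * P + P * (B x)ᴴ + V x)‖ < r := by
    refine lt_of_le_of_lt ?_ hr
    rw [show B x * Z x + Z x * (B x)ᴴ + V x - (B x * P + P * (B x)ᴴ + V x)
      = B x * (Z x - P) + (Z x - P) * (B x)ᴴ by noncomm_ring, hd, dist_eq_norm]
    have a1 := norm_mul_le (B x) (Z x - P)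
    have a2 := norm_mul_le (Z x - P) (B x)ᴴ
    rw [l2_opNorm_conjTranspose] at a2
    have a3 := mul_le_mul_of_nonneg_right (hB x hx') (norm_nonneg (Z x - P))
    linarith [norm_add_le (B x * (Z x - P)) ((Z x - P) * (B x)ᴴ)]
  refine ((h3.liminf_right_slope_norm_le h4).and_eventually self_mem_nhdsWithin).mono
    fun z hz => lt_of_le_of_lt ?_ hz.1
  have hzx : 0 < z - x := sub_pos.2 hz.2
  refine mul_le_mul_of_nonneg_left (sub_le_sub ?_ ?_) (inv_pos.2 hzx).le
  · simp only [Pi.sub_apply, ← dist_eq_norm]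
    refine infDist_le_dist_of_mem (PosSemidef.add ?_ ((hV x hx').smul hzx.le))
    have := PosSemidef.mul_mul_conjTranspose_same hP (1 + (z - x) • B x)
    simpa [conjTranspose_smul] using this
  · simp [hd, dist_eq_norm]

theorem Dec.norm_eq {A U : Matrix n n ℂ} {d : n → ℝ} (h : Dec A U d) : ‖A‖ = ‖d‖ := by
  have hU : U ∈ unitary (Matrix n n ℂ) := ⟨h.l, h.r⟩
  rw [h.eq, show Uᴴ = star U from rfl, CStarRing.norm_mul_mem_unitary _ (Unitary.star_mem hU),
    CStarRing.norm_mem_unitary_mul _ hU, dg, l2_opNorm_diagonal]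
  simp [Pi.norm_def]

theorem Dec.norm_le {A U : Matrix n n ℂ} {d : n → ℝ} (h : Dec A U d) {r : ℝ} (hr : 0 ≤ r)
    (hd : ∀ i, |d i| ≤ r) : ‖A‖ ≤ r := by
  rw [h.norm_eq]; exact (pi_norm_le_iff_of_nonneg hr).2 hd

theorem Dec.le_norm {A U : Matrix n n ℂ} {d : n → ℝ} (h : Dec A U d) (i : n) : |d i| ≤ ‖A‖ := by
  rw [h.norm_eq]; exact norm_le_pi_norm d i

/-- The quadratic form of `A` at the `i`-th column of `U`. -/
noncomputable def qf (U : Matrix n n ℂ) (i : n) (A : Matrix n n ℂ) : ℝ := ((Uᴴ * A * U) i i).re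

/-- The same as a linear map. -/
noncomputable def qfL (U : Matrix n n ℂ) (i : n) : Matrix n n ℂ →ₗ[ℝ] ℝ where
  toFun := qf U i
  map_add' A B := by simp [qf, Matrix.mul_add, Matrix.add_mul]
  map_smul' r A := by simp [qf]

theorem qf_add (U : Matrix n n ℂ) (i : n) (A B : Matrix n n ℂ) :
    qf U i (A + B) = qf U i A + qf U i B := (qfL U i).map_add A B
theorem qf_sub (U : Matrix n n ℂ) (i : n) (A B : Matrix n n ℂ) :
    qf U i (A - B) = qf U i A - qf U i B := (qfL U i).map_sub A B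
theorem qf_smul (U : Matrix n n ℂ) (i : n) (r : ℝ) (A : Matrix n n ℂ) :
    qf U i (r • A) = r * qf U i A := (qfL U i).map_smul r A

theorem qf_nonneg (U : Matrix n n ℂ) (i : n) {A : Matrix n n ℂ} (h : A.PosSemidef) :
    0 ≤ qf U i A := (Complex.nonneg_iff.mp (h.conjTranspose_mul_mul_same U).diag_nonneg).1

theorem qf_le (U : Matrix n n ℂ) (i : n) {A B : Matrix n n ℂ} (h : (B - A).PosSemidef) :
    qf U i A ≤ qf U i B := by
  have := qf_nonneg U i h
  rw [qf_sub] at this; linarith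

theorem Dec.qf_eq {A U : Matrix n n ℂ} {d : n → ℝ} (h : Dec A U d) (i : n) : qf U i A = d i := by
  simp [qf, h.conj_eq, dg]

theorem Dec.qf_mul {A U : Matrix n n ℂ} {d : n → ℝ} (h : Dec A U d) (i : n) (Z : Matrix n n ℂ) :
    qf U i (A * Z) = d i * qf U i Z ∧ qf U i (Z * A) = d i * qf U i Z := by
  have h1 : Uᴴ * A = dg d * Uᴴ := by
    rw [← h.conj_eq, Matrix.mul_assoc, h.r, Matrix.mul_one]
  constructor
  · rw [qf, ← Matrix.mul_assoc, h1, Matrix.mul_assoc, Matrix.mul_assoc, dg, diagonal_mul,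
      ← Matrix.mul_assoc]
    simp [qf]
  · rw [qf, Matrix.mul_assoc, Matrix.mul_assoc, h.mul_U, ← Matrix.mul_assoc, ← Matrix.mul_assoc,
      dg, mul_diagonal]
    simp [qf, mul_comm]

theorem qf_sq_le {U Z : Matrix n n ℂ} (hU : U * Uᴴ = 1) (hZ : Z.IsHermitian) (i : n) :
    qf U i Z ^ 2 ≤ qf U i (Z * Z) := by
  have h1 : Uᴴ * (Z * Z) * U = (Uᴴ * Z * U)ᴴ * (Uᴴ * Z * U) := by
    simp only [conjTranspose_mul, conjTranspose_conjTranspose, hZ.eq, Matrix.mul_assoc]
    rw [← Matrix.mul_assoc U, hU, Matrix.one_mul]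
  rw [qf, qf, h1]
  generalize Uᴴ * Z * U = Y
  rw [Matrix.mul_apply, Complex.re_sum]
  refine le_trans ?_ (Finset.single_le_sum (f := fun j => (Yᴴ i j * Y j i).re) (fun j _ => ?_)
    (Finset.mem_univ i))
  · simp; nlinarith [mul_self_nonneg (Y i i).im]
  · simp; nlinarith [mul_self_nonneg (Y j i).im, mul_self_nonneg (Y j i).re]

theorem qf_sq_le' (U : Matrix n n ℂ) {Z : Matrix n n ℂ} (hZ : Z.PosSemidef) (i : n) :
    qf U i (Z * Z) ≤ ‖Z‖ * qf U i Z := by
  obtain ⟨V, z, hz⟩ := exists_dec hZ.1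
  rw [← qf_smul]
  refine qf_le U i (((hz.smul _).sub (hz.mul hz)).psd_iff.2 fun j => ?_)
  have h1 := hz.psd_iff.1 hZ j
  have h2 := (le_abs_self _).trans (hz.le_norm j)
  nlinarith

theorem qf_le_norm {U A : Matrix n n ℂ} (hU : Uᴴ * U = 1) (hA : A.IsHermitian) (i : n) :
    qf U i A ≤ ‖A‖ := by
  obtain ⟨V, z, hz⟩ := exists_dec hA
  have := qf_le U i (((hz.const ‖A‖).sub hz).psd_iff.2 fun j =>
    sub_nonneg.2 ((le_abs_self _).trans (hz.le_norm j)))
  rw [qf_smul] at this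
  simpa [qf, hU] using this

end Vale.Agent.P371
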