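import Vale.Agent.P371.Prim

/-!
Completion of squares along a Riccati path, and the trace forms of Young's and Klein's inequality.
-/

namespace Vale.Agent.P371

open Matrix Set Filter MeasureTheory
open scoped ComplexOrder Topology Matrix.Norms.L2Operator

variable {m n : Type} [Fintype m] [DecidableEq m] [Fintype n] [DecidableEq n]

theorem mprim_path {K : Matrix n n ℂ} {X V : ℝ → Matrix n n ℂ} {R : ℝ} (hV : Continuous V)
    (hX : Continuous X) (hd : ∀ x ∈ Ioo (-R) R, HasDerivAt X (K * K - X x * X x - V x) x)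
    (hl : ∀ x, x ≤ -R → X x = K) (hr : ∀ x, R ≤ x → X x = -K) :
    MPrim X fun x => K * K - X x * X x - indicator (Ioo (-R) R) V x := by
  intro i j
  have hi : ∀ a b, IntervalIntegrable
      (fun x => (K * K - X x * X x - indicator (Ioo (-R) R) V x) i j) volume a b := fun a b => by
    have h1 : Continuous fun x => (K * K - X x * X x) i j :=
      Continuous.matrix_elem (by fun_prop) i j
    have h2 := (hV.matrix_elem i j).intervalIntegrable (μ := volume) a b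
    have h3 : IntervalIntegrable (indicator (Ioo (-R) R) fun x => V x i j) volume a b :=
      ⟨h2.1.indicator measurableSet_Ioo, h2.2.indicator measurableSet_Ioo⟩
    refine ((h1.intervalIntegrable a b).sub h3).congr fun x _ => ?_
    by_cases hx : x ∈ Ioo (-R) R <;> simp [hx]
  refine ⟨hi, fun a b => (integral_eq_of_hasDerivAt_off_countable _ _ (s := {-R, R})
    (Set.toFinite _).countable (hX.matrix_elem i j).continuousOn (fun x hx => ?_) (hi a b)).symm⟩
  refine hasDerivAt_lin (Matrix.entryLinearMap ℝ ℂ i j) (A := X)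
    (A' := K * K - X x * X x - indicator (Ioo (-R) R) V x) ?_
  have hx2 := hx.2
  simp only [mem_insert_iff, mem_singleton_iff, not_or] at hx2
  by_cases h1 : x ∈ Ioo (-R) R
  · rw [indicator_of_mem h1]; exact hd x h1
  rw [indicator_of_notMem h1]
  rcases lt_or_gt_of_ne hx2.1 with h2 | h2
  · rw [hl x h2.le, sub_self, sub_zero]
    refine (hasDerivAt_const x K).congr_of_eventuallyEq ?_
    filter_upwards [Iic_mem_nhds h2] with y hy using hl y hy
  · have h3 : R < x := lt_of_le_of_ne (not_lt.1 fun h => h1 ⟨h2, h⟩) (Ne.symm hx2.2)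
    rw [hr x h3.le, neg_mul_neg, sub_self, sub_zero]
    refine (hasDerivAt_const x (-K)).congr_of_eventuallyEq ?_
    filter_upwards [Ici_mem_nhds h3] with y hy using hr y hy

omit [DecidableEq m] in
theorem energy_lower {Φ Φ' : ℝ → Matrix m n ℂ} (hp : MPrim Φ Φ') (h2 : ML2 Φ) (h2' : ML2 Φ')
    {K : Matrix n n ℂ} {X V : ℝ → Matrix n n ℂ} {R : ℝ} (hR : 0 ≤ R) (hK : K.PosSemidef)
    (hV : Continuous V) (hX : Continuous X) (hXh : ∀ x, (X x).IsHermitian)
    (hup : ∀ x, (K - X x).PosSemidef) (hlo : ∀ x, (K + X x).PosSemidef)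
    (hd : ∀ x ∈ Ioo (-R) R, HasDerivAt X (K * K - X x * X x - V x) x)
    (hl : ∀ x, x ≤ -R → X x = K) (hr : ∀ x, R ≤ x → X x = -K) :
    ∫ x in -R..R, rtr ((Φ x)ᴴ * Φ x * V x)
      ≤ (∫ x, rtr ((Φ' x)ᴴ * Φ' x)) + ∫ x, rtr ((Φ x)ᴴ * Φ x * (K * K)) := by
  have hb : ∀ x i j, ‖X x i j‖ ≤ 3 * rtr K := fun x i j => by
    have a1 := entry_le_rtr (hlo x) i j
    have a2 := entry_le_rtr hK i j
    have a3 := rtr_nonneg (hup x)
    rw [rtr_add] at a1
    rw [rtr_sub] at a3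
    have a4 : X x i j = (K + X x) i j - K i j := by simp
    rw [a4]
    linarith [norm_sub_le ((K + X x) i j) (K i j)]
  have hu := ((hp.ct.mul hp).mul (mprim_path hV hX hd hl hr)).rtr
  have iG := h2.ct.mul h2
  have i0 := (iG.mul_bdd hX hb).rtr
  have i1 := (((h2'.ct.mul h2).add (h2.ct.mul h2')).mul_bdd hX hb).rtr
  have i2 := (iG.rtr_mul (K * K)).1
  have i3 := ((iG.mul_bdd hX hb).mul_bdd hX hb).rtr
  have i5 := (h2'.ct.mul h2').rtr
  have hc := hp.cont
  have c4 : Continuous fun x => rtr ((Φ x)ᴴ * Φ x * V x) := by fun_prop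
  have i4 : Integrable (indicator (Ioo (-R) R) fun x => rtr ((Φ x)ᴴ * Φ x * V x)) :=
    (integrable_indicator_iff measurableSet_Ioo).2
      (c4.integrableOn_Icc.mono_set Ioo_subset_Icc_self)
  have e : ∀ x, rtr (((Φ' x)ᴴ * Φ x + (Φ x)ᴴ * Φ' x) * X x
      + (Φ x)ᴴ * Φ x * (K * K - X x * X x - indicator (Ioo (-R) R) V x))
      = rtr (((Φ' x)ᴴ * Φ x + (Φ x)ᴴ * Φ' x) * X x) + rtr ((Φ x)ᴴ * Φ x * (K * K))
        - rtr ((Φ x)ᴴ * Φ x * X x * X x)
        - indicator (Ioo (-R) R) (fun x => rtr ((Φ x)ᴴ * Φ x * V x)) x := fun x => by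
    rw [rtr_add, Matrix.mul_sub, Matrix.mul_sub, rtr_sub, rtr_sub, ← Matrix.mul_assoc _ (X x)]
    by_cases hx : x ∈ Ioo (-R) R <;> simp [hx, rtr_zero] <;> ring
  simp only [e] at hu
  have iu := ((i1.add i2).sub i3).sub i4
  have z := hu.integral_eq_zero i0 iu
  rw [intervalIntegral.integral_of_le (by linarith), integral_Ioc_eq_integral_Ioo,
    ← integral_indicator measurableSet_Ioo, ← integral_add i5 i2, ← add_zero (∫ x, indicator _ _ x),
    ← z]
  refine (integral_add i4 iu).symm.le.trans (integral_mono (i4.add iu) (i5.add i2) fun x => ?_)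
  have k := two_rtr_le (Φ x * X x) (Φ' x)
  have e1 : rtr (((Φ' x)ᴴ * Φ x + (Φ x)ᴴ * Φ' x) * X x) = 2 * rtr ((Φ x * X x)ᴴ * Φ' x) := by
    have a1 : rtr ((Φ' x)ᴴ * Φ x * X x) = rtr ((Φ x * X x)ᴴ * Φ' x) := by
      rw [← rtr_conjTranspose, Matrix.mul_assoc, conjTranspose_mul, conjTranspose_conjTranspose]
    have a2 : rtr ((Φ x)ᴴ * Φ' x * X x) = rtr ((Φ x * X x)ᴴ * Φ' x) := by
      rw [rtr_comm, conjTranspose_mul, (hXh x).eq, Matrix.mul_assoc]
    rw [Matrix.add_mul, rtr_add, a1, a2, two_mul]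
  have e2 : rtr ((Φ x)ᴴ * Φ x * X x * X x) = rtr ((Φ x * X x)ᴴ * (Φ x * X x)) := by
    rw [rtr_comm, conjTranspose_mul, (hXh x).eq]; simp only [Matrix.mul_assoc]
  simp only [Pi.add_apply, Pi.sub_apply]
  linarith

/-- The constant of Young's inequality. -/
noncomputable def kap (θ : ℝ) : ℝ := θ ^ θ / (1 + θ) ^ (1 + θ)

theorem young_scalar {θ w g : ℝ} (hθ : 0 < θ) (hw : 0 ≤ w) (hg : 0 ≤ g) :
    w * g ≤ kap θ * w ^ (1 + θ) + g * g ^ θ⁻¹ := by
  have hq : 0 < θ⁻¹ := inv_pos.2 hθ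
  have hc : (1 + θ).HolderConjugate (1 + θ⁻¹) := by
    rw [Real.holderConjugate_iff]
    refine ⟨by linarith, ?_⟩
    field_simp; ring
  set s := (1 + θ⁻¹) ^ (1 + θ⁻¹)⁻¹ with hs
  have hs0 : 0 < s := Real.rpow_pos_of_pos (by linarith) _
  have h := Real.young_inequality_of_nonneg (div_nonneg hw hs0.le) (mul_nonneg hs0.le hg) hc
  have e1 : w / s * (s * g) = w * g := by field_simp
  have e2 : (s * g) ^ (1 + θ⁻¹) / (1 + θ⁻¹) = g * g ^ θ⁻¹ := by
    rw [Real.mul_rpow hs0.le hg, hs, Real.rpow_inv_rpow (by linarith) (by linarith),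
      Real.rpow_add' hg (by linarith), Real.rpow_one]
    field_simp
  have e3 : (w / s) ^ (1 + θ) / (1 + θ) = kap θ * w ^ (1 + θ) := by
    rw [Real.div_rpow hw hs0.le, hs, ← Real.rpow_mul (by linarith),
      show (1 + θ⁻¹)⁻¹ * (1 + θ) = θ by field_simp; ring,
      show 1 + θ⁻¹ = (1 + θ) / θ by field_simp; ring, Real.div_rpow (by linarith) hθ.le, kap,
      Real.rpow_add (show 0 < 1 + θ by linarith), Real.rpow_one]
    have := (Real.rpow_pos_of_pos hθ θ).ne'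
    have := (Real.rpow_pos_of_pos (show 0 < 1 + θ by linarith) θ).ne'
    field_simp
  rwa [e1, e2, e3] at h

theorem young_trace {θ : ℝ} (hθ : 0 < θ) {W : Matrix m m ℂ} (hW : W.PosSemidef)
    (Φ : Matrix m n ℂ) : rtr (Φᴴ * W * Φ) ≤ kap θ * rtr (cfc (fun t : ℝ => t ^ (1 + θ)) W)
      + rtr (Φᴴ * Φ * cfc (fun t : ℝ => t ^ θ⁻¹) (Φᴴ * Φ)) := by
  have hB := posSemidef_self_mul_conjTranspose Φ
  have hG := posSemidef_conjTranspose_mul_self Φ
  obtain ⟨U, w, hw⟩ := exists_dec hW.1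
  obtain ⟨V, g, hg⟩ := exists_dec hB.1
  have h := hw.ds_le ((hw.cfc fun t => t ^ (1 + θ)).smul (kap θ)) hg
    (hg.mul (hg.cfc fun t => t ^ θ⁻¹)) 1
    fun i l => young_scalar hθ (hw.psd_iff.1 hW i) (hg.psd_iff.1 hB l)
  simp only [conjTranspose_one, Matrix.one_mul, Matrix.mul_one, rtr_smul] at h
  have e := cfc_inter hB.1 hG.1 Φ (Matrix.mul_assoc _ _ _) fun t => t ^ θ⁻¹
  rw [Matrix.mul_assoc Φ, rtr_comm Φ, Matrix.mul_assoc, e, ← Matrix.mul_assoc Φᴴ,
    ← Matrix.mul_assoc, rtr_comm _ Φᴴ, ← Matrix.mul_assoc] at h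
  exact h

theorem klein_convex {γ a b : ℝ} (hγ : 1 ≤ γ) (ha : 0 < a) (hb : 0 ≤ b) :
    γ * a ^ (γ - 1) * b ≤ (γ - 1) * a ^ γ + b ^ γ := by
  have h := one_add_mul_self_le_rpow_one_add (s := b / a - 1)
    (by linarith [div_nonneg hb ha.le]) hγ
  rw [add_sub_cancel, Real.div_rpow hb ha.le, le_div_iff₀ (Real.rpow_pos_of_pos ha γ)] at h
  rw [Real.rpow_sub_one ha.ne']
  have : γ * (a ^ γ / a) * b = (1 + γ * (b / a - 1)) * a ^ γ + (γ - 1) * a ^ γ := by
    field_simp; ring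
  linarith

theorem klein_concave {γ a b : ℝ} (hγ0 : 0 ≤ γ) (hγ : γ ≤ 1) (ha : 0 < a) (hb : 0 ≤ b) :
    (γ - 1) * a ^ γ + b ^ γ ≤ γ * a ^ (γ - 1) * b := by
  have h := rpow_one_add_le_one_add_mul_self (s := b / a - 1)
    (by linarith [div_nonneg hb ha.le]) hγ0 hγ
  rw [add_sub_cancel, Real.div_rpow hb ha.le, div_le_iff₀ (Real.rpow_pos_of_pos ha γ)] at h
  rw [Real.rpow_sub_one ha.ne']
  have : γ * (a ^ γ / a) * b = (1 + γ * (b / a - 1)) * a ^ γ + (γ - 1) * a ^ γ := by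
    field_simp; ring
  linarith

end Vale.Agent.P371
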