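import Vale.Agent.P371.Scal
import Vale.Agent.P371.Energy
import Vale.Agent.P371.Defs

/-!
Evaluation of the constants.
-/

namespace Vale.Agent.P371

open MeasureTheory Set Real

theorem beta_real {θ : ℝ} (hθ : 0 < θ) :
    Gamma (θ + 1) * Gamma (θ + 1)
      = Gamma (2 * (θ + 1)) * ∫ x in (0 : ℝ)..1, x ^ θ * (1 - x) ^ θ := by
  have h := Complex.Gamma_mul_Gamma_eq_betaIntegral (s := ((θ + 1 : ℝ) : ℂ))
    (t := ((θ + 1 : ℝ) : ℂ)) (by simp; linarith) (by simp; linarith)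
  have e : Complex.betaIntegral ((θ + 1 : ℝ) : ℂ) ((θ + 1 : ℝ) : ℂ)
      = ((∫ x in (0 : ℝ)..1, x ^ θ * (1 - x) ^ θ : ℝ) : ℂ) := by
    rw [Complex.betaIntegral, ← intervalIntegral.integral_ofReal]
    refine intervalIntegral.integral_congr fun x hx => ?_
    rw [uIcc_of_le zero_le_one] at hx
    simp only [Complex.ofReal_add, Complex.ofReal_one, add_sub_cancel_right, Complex.ofReal_mul]
    rw [Complex.ofReal_cpow hx.1, Complex.ofReal_cpow (sub_nonneg.2 hx.2)]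
    simp
  rw [e, ← Complex.ofReal_add, ← two_mul, Complex.Gamma_ofReal, Complex.Gamma_ofReal] at h
  exact_mod_cast h

theorem cth_eq {θ : ℝ} (hθ : 0 < θ) : cth θ = √π * Gamma (θ + 1) / Gamma (θ + 3 / 2) := by
  have h1 := intervalIntegral.integral_comp_mul_sub (a := 0) (b := 1)
    (fun t : ℝ => (1 - t * t) ^ θ) (two_ne_zero) 1
  have h2 : ∫ x in (0 : ℝ)..1, (1 - (2 * x - 1) * (2 * x - 1)) ^ θ
      = 2 ^ (2 * θ) * ∫ x in (0 : ℝ)..1, x ^ θ * (1 - x) ^ θ := by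
    rw [← intervalIntegral.integral_const_mul]
    refine intervalIntegral.integral_congr fun x hx => ?_
    rw [uIcc_of_le zero_le_one] at hx
    rw [show 1 - (2 * x - 1) * (2 * x - 1) = 2 ^ (2 : ℝ) * (x * (1 - x)) by norm_num; ring,
      Real.mul_rpow (by positivity) (mul_nonneg hx.1 (sub_nonneg.2 hx.2)),
      Real.mul_rpow hx.1 (sub_nonneg.2 hx.2), ← Real.rpow_mul (by norm_num)]
  rw [h2] at h1
  norm_num at h1
  have h3 := beta_real hθ
  have h4 := Real.Gamma_mul_Gamma_add_half (θ + 1)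
  have g1 := Real.Gamma_pos_of_pos (show 0 < θ + 1 by linarith)
  have g2 := Real.Gamma_pos_of_pos (show 0 < θ + 3 / 2 by linarith)
  rw [show θ + 1 + 1 / 2 = θ + 3 / 2 by ring, show 1 - 2 * (θ + 1) = -(2 * θ) - 1 by ring,
    Real.rpow_sub_one two_ne_zero, Real.rpow_neg (by norm_num)] at h4
  have p : (0 : ℝ) < 2 ^ (2 * θ) := by positivity
  rw [eq_div_iff g2.ne', cth]
  refine mul_left_cancel₀ g1.ne' ?_
  have h5 : (∫ t in (-1 : ℝ)..1, (1 - t * t) ^ θ)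
      = 2 * (2 ^ (2 * θ) * ∫ x in (0 : ℝ)..1, x ^ θ * (1 - x) ^ θ) := by linarith
  rw [h5]
  have h6 : 2 ^ (2 * θ) * (2 ^ (2 * θ) : ℝ)⁻¹ = 1 := mul_inv_cancel₀ p.ne'
  linear_combination (2 * 2 ^ (2 * θ) * ∫ x in (0 : ℝ)..1, x ^ θ * (1 - x) ^ θ) * h4 - √π * h3
    + (Gamma (2 * (θ + 1)) * √π * ∫ x in (0 : ℝ)..1, x ^ θ * (1 - x) ^ θ) * h6

theorem cth_pos {θ : ℝ} (hθ : 0 < θ) : 0 < cth θ := by
  have g1 := Real.Gamma_pos_of_pos (show 0 < θ + 1 by linarith)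
  have g2 := Real.Gamma_pos_of_pos (show 0 < θ + 3 / 2 by linarith)
  have := Real.pi_pos
  rw [cth_eq hθ]; positivity

theorem oneConst_eq {θ : ℝ} (hθ : 0 < θ) : oneConst (θ + 1 / 2) = kap θ / cth θ := by
  have g1 := Real.Gamma_pos_of_pos (show 0 < θ + 1 by linarith)
  have g2 := Real.Gamma_pos_of_pos (show 0 < θ + 3 / 2 by linarith)
  have g3 := Real.sqrt_pos.2 Real.pi_pos
  have p : 0 < 1 + θ := by linarith
  have := Real.rpow_pos_of_pos p θ
  rw [oneConst, clConst, kap, cth_eq hθ, add_sub_cancel_right,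
    show θ + 1 / 2 + 1 / 2 = 1 + θ by ring, show θ + 1 / 2 + 1 = θ + 3 / 2 by ring,
    show θ + 1 / 2 + 3 / 2 = (θ + 1) + 1 by ring, Real.Gamma_add_one (by linarith),
    Real.div_rpow hθ.le p.le, Real.rpow_add p, Real.rpow_one]
  field_simp; ring

end Vale.Agent.P371
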