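import Vale.Agent.P371.Ode

/-!
Existence of a Riccati path joining `K` to `-K` for a suitable positive matrix `K`.
-/

namespace Vale.Agent.P371

open Matrix Set Metric Filter MeasureTheory
open scoped ComplexOrder Matrix.Norms.L2Operator Topology NNReal

variable {n : Type} [Fintype n] [DecidableEq n]

/-- Cut-off. -/
noncomputable def sig (ρ : ℝ) (Z : Matrix n n ℂ) : ℝ := max 0 (min 1 (ρ + 1 - ‖Z‖))

/-- Quadratic part of the Riccati field. -/
noncomputable def quad (K Z : Matrix n n ℂ) : Matrix n n ℂ := Zᴴ * Z - K * Z - Zᴴ * K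

variable {ρ b r : ℝ} {K Z Z' : Matrix n n ℂ}

theorem sig_nonneg : 0 ≤ sig ρ Z := le_max_left _ _
theorem sig_le_one : sig ρ Z ≤ 1 := max_le zero_le_one (min_le_left _ _)
theorem sig_eq_one (h : ‖Z‖ ≤ ρ) : sig ρ Z = 1 := by
  rw [sig, min_eq_left (by linarith), max_eq_right zero_le_one]
theorem sig_eq_zero (h : ρ + 1 ≤ ‖Z‖) : sig ρ Z = 0 :=
  max_eq_left ((min_le_right _ _).trans (by linarith))
theorem sig_lip : |sig ρ Z - sig ρ Z'| ≤ ‖Z - Z'‖ := by
  have h1 := abs_le.1 (abs_norm_sub_norm_le Z Z')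
  unfold sig
  rw [abs_le]
  constructor <;> simp only [max_def, min_def] <;> split_ifs <;> linarith [norm_nonneg (Z - Z')]

theorem quad_norm (hK : ‖K‖ ≤ b) (hZ : ‖Z‖ ≤ r) : ‖quad K Z‖ ≤ r * r + 2 * b * r := by
  have a1 := norm_mul_le Zᴴ Z
  have a2 := norm_mul_le K Z
  have a3 := norm_mul_le Zᴴ K
  rw [l2_opNorm_conjTranspose] at a1 a3
  have a4 := norm_sub_le (Zᴴ * Z - K * Z) (Zᴴ * K)
  have a5 := norm_sub_le (Zᴴ * Z) (K * Z)
  have a6 := mul_le_mul hZ hZ (norm_nonneg _) ((norm_nonneg _).trans hZ)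
  have a7 := mul_le_mul hK hZ (norm_nonneg _) ((norm_nonneg _).trans hK)
  unfold quad; linarith

theorem quad_lip (hK : ‖K‖ ≤ b) (hZ : ‖Z‖ ≤ r) (hZ' : ‖Z'‖ ≤ r) :
    ‖quad K Z - quad K Z'‖ ≤ (2 * r + 2 * b) * ‖Z - Z'‖ := by
  have e : quad K Z - quad K Z' = (Zᴴ * (Z - Z') + (Z - Z')ᴴ * Z') - (K * (Z - Z') + (Z - Z')ᴴ * K) := by
    simp only [quad, conjTranspose_sub]; noncomm_ring
  have a1 := norm_mul_le Zᴴ (Z - Z')
  have a2 := norm_mul_le (Z - Z')ᴴ Z'
  have a3 := norm_mul_le K (Z - Z')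
  have a4 := norm_mul_le (Z - Z')ᴴ K
  rw [l2_opNorm_conjTranspose] at a1 a2 a4
  have a5 := norm_sub_le (Zᴴ * (Z - Z') + (Z - Z')ᴴ * Z') (K * (Z - Z') + (Z - Z')ᴴ * K)
  have a6 := norm_add_le (Zᴴ * (Z - Z')) ((Z - Z')ᴴ * Z')
  have a7 := norm_add_le (K * (Z - Z')) ((Z - Z')ᴴ * K)
  have b1 := mul_le_mul_of_nonneg_right hZ (norm_nonneg (Z - Z'))
  have b2 := mul_le_mul_of_nonneg_right hZ' (norm_nonneg (Z - Z'))
  have b3 := mul_le_mul_of_nonneg_right hK (norm_nonneg (Z - Z'))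
  rw [e]; linarith

theorem fld_norm (hρ : 0 ≤ ρ) (hK : ‖K‖ ≤ b) :
    ‖sig ρ Z • quad K Z‖ ≤ (ρ + 1) * (ρ + 1) + 2 * b * (ρ + 1) := by
  have hb := (norm_nonneg _).trans hK
  rcases le_total (ρ + 1) ‖Z‖ with h | h
  · rw [sig_eq_zero h, zero_smul, norm_zero]; positivity
  · rw [norm_smul, Real.norm_of_nonneg sig_nonneg]
    exact (mul_le_of_le_one_left (norm_nonneg _) sig_le_one).trans (quad_norm hK h)

theorem fld_lip (hρ : 0 ≤ ρ) (hK : ‖K‖ ≤ b) : ‖sig ρ Z • quad K Z - sig ρ Z' • quad K Z'‖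
    ≤ ((ρ + 1) * (ρ + 1) + 2 * b * (ρ + 1) + (2 * (ρ + 1) + 2 * b)) * ‖Z - Z'‖ := by
  have hb := (norm_nonneg _).trans hK
  wlog hle : ‖Z‖ ≤ ‖Z'‖ generalizing Z Z'
  · rw [norm_sub_rev, norm_sub_rev Z]; exact this (le_of_not_ge hle)
  rcases le_total (ρ + 1) ‖Z‖ with h | h
  · rw [sig_eq_zero h, sig_eq_zero (h.trans hle), zero_smul, zero_smul, sub_zero, norm_zero]
    positivity
  have e : sig ρ Z • quad K Z - sig ρ Z' • quad K Z'
      = (sig ρ Z - sig ρ Z') • quad K Z + sig ρ Z' • (quad K Z - quad K Z') := by module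
  have a1 : ‖(sig ρ Z - sig ρ Z') • quad K Z‖
      ≤ ‖Z - Z'‖ * ((ρ + 1) * (ρ + 1) + 2 * b * (ρ + 1)) := by
    rw [norm_smul]
    exact mul_le_mul sig_lip (quad_norm hK h) (norm_nonneg _) (norm_nonneg _)
  have a2 : ‖sig ρ Z' • (quad K Z - quad K Z')‖ ≤ (2 * (ρ + 1) + 2 * b) * ‖Z - Z'‖ := by
    rcases le_total (ρ + 1) ‖Z'‖ with h' | h'
    · rw [sig_eq_zero h', zero_smul, norm_zero]; positivity
    · rw [norm_smul, Real.norm_of_nonneg sig_nonneg]
      exact (mul_le_of_le_one_left (norm_nonneg _) sig_le_one).trans (quad_lip hK h h')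
  rw [e]
  linarith [norm_add_le ((sig ρ Z - sig ρ Z') • quad K Z) (sig ρ Z' • (quad K Z - quad K Z'))]

/-- Hermitian part. -/
noncomputable def hp (A : Matrix n n ℂ) : Matrix n n ℂ := (1 / 2 : ℝ) • (A + Aᴴ)

omit [Fintype n] [DecidableEq n] in
theorem hp_herm (A : Matrix n n ℂ) : (hp A).IsHermitian := by
  simp [hp, IsHermitian, conjTranspose_smul, add_comm]

omit [Fintype n] [DecidableEq n] in
theorem hp_eq {A : Matrix n n ℂ} (h : A.IsHermitian) : hp A = A := by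
  rw [hp, h.eq]; module

omit [Fintype n] [DecidableEq n] in
theorem continuous_hp : Continuous (hp : Matrix n n ℂ → Matrix n n ℂ) := by
  unfold hp; fun_prop

/-- A solution of the truncated equation. -/
structure Sol (ρ R : ℝ) (K : Matrix n n ℂ) (V Z : ℝ → Matrix n n ℂ) : Prop where
  init : Z (-R) = 0
  der : ∀ t ∈ Icc (-R) R,
    HasDerivWithinAt Z (sig ρ (Z t) • quad K (Z t) + V t) (Icc (-R) R) t

namespace Sol
variable {R : ℝ} {V Z : ℝ → Matrix n n ℂ}

theorem cont (h : Sol ρ R K V Z) : ContinuousOn Z (Icc (-R) R) :=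
  fun t ht => (h.der t ht).continuousWithinAt

theorem herm (h : Sol ρ R K V Z) (hK : K.IsHermitian) (hV : ∀ t, (V t).PosSemidef) :
    ∀ t ∈ Icc (-R) R, (Z t).IsHermitian := by
  let L : Matrix n n ℂ →ₗ[ℝ] Matrix n n ℂ :=
    { toFun := fun A => Aᴴ - A
      map_add' := fun A B => by simp only [conjTranspose_add]; abel
      map_smul' := fun r A => by simp [conjTranspose_smul, smul_sub] }
  have h1 : ∀ t ∈ Icc (-R) R, HasDerivWithinAt (fun t => L (Z t)) 0 (Icc (-R) R) t := fun t ht => by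
    refine (L.toContinuousLinearMap.hasFDerivAt.comp_hasDerivWithinAt t (h.der t ht)).congr_deriv ?_
    change (sig ρ (Z t) • quad K (Z t) + V t)ᴴ - _ = 0
    simp only [quad, conjTranspose_add, conjTranspose_smul, conjTranspose_sub, conjTranspose_mul,
      conjTranspose_conjTranspose, hK.eq, (hV t).1.eq, star_trivial]
    module
  intro t ht
  have := constant_of_has_deriv_right_zero (fun t ht => (h1 t ht).continuousWithinAt)
    (fun t ht => (h1 t (Ico_subset_Icc_self ht)).mono_of_mem_nhdsWithin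
      (Icc_mem_nhdsGE_of_mem ht)) t ht
  rw [h.init, map_zero] at this
  exact sub_eq_zero.1 this

theorem sig_norm (hρ : 0 ≤ ρ) (A : Matrix n n ℂ) : ‖sig ρ A • A‖ ≤ ρ + 1 := by
  rcases le_total (ρ + 1) ‖A‖ with h | h
  · rw [sig_eq_zero h, zero_smul, norm_zero]; positivity
  · rw [norm_smul, Real.norm_of_nonneg sig_nonneg]
    exact (mul_le_of_le_one_left (norm_nonneg _) sig_le_one).trans h

theorem psd (h : Sol ρ R K V Z) (hρ : 0 ≤ ρ) (hK : K.IsHermitian) (hV : ∀ t, (V t).PosSemidef) :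
    ∀ t ∈ Icc (-R) R, (Z t).PosSemidef := by
  refine psd_of_deriv (B := fun t => (1 / 2 : ℝ) • (sig ρ (Z t) • Z t) - sig ρ (Z t) • K) (V := V)
    (C := 1 / 2 * (ρ + 1) + ‖K‖) (fun t ht => (h.der t ht).congr_deriv ?_) (fun t _ => ?_)
    (fun t _ => hV t) (h.init ▸ PosSemidef.zero)
  · simp only [quad, conjTranspose_smul, conjTranspose_sub, (h.herm hK hV t ht).eq, hK.eq,
      star_trivial, Matrix.sub_mul, Matrix.mul_sub, Matrix.smul_mul, Matrix.mul_smul]
    module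
  · refine (norm_sub_le _ _).trans (add_le_add ?_ ?_)
    · rw [norm_smul, Real.norm_of_nonneg (by norm_num)]
      exact mul_le_mul_of_nonneg_left (sig_norm hρ _) (by norm_num)
    · rw [norm_smul, Real.norm_of_nonneg sig_nonneg]
      exact mul_le_of_le_one_left (norm_nonneg _) sig_le_one

theorem psd' (h : Sol ρ R K V Z) (hρ : 0 ≤ ρ) (hK : K.IsHermitian) (hV : ∀ t, (V t).PosSemidef)
    (hR : Z R = K + K) : ∀ t ∈ Icc (-R) R, (K + K - Z t).PosSemidef := by
  have hm : ∀ t ∈ Icc (-R) R, -t ∈ Icc (-R) R := fun t ht => ⟨by linarith [ht.2], by linarith [ht.1]⟩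
  have := psd_of_deriv (Z := fun t => K + K - Z (-t))
    (B := fun t => (-1 / 2 : ℝ) • (sig ρ (Z (-t)) • Z (-t))) (V := fun t => V (-t))
    (C := 1 / 2 * (ρ + 1)) (a := -R) (b := R) (fun t ht => ?_) (fun t _ => ?_)
    (fun t _ => hV _) (by simpa [hR] using PosSemidef.zero)
  · intro t ht
    simpa using this (-t) (hm t ht)
  · have h1 := ((h.der (-t) (hm t ht)).scomp t (hasDerivAt_neg t).hasDerivWithinAt hm).const_sub
      (K + K)
    refine h1.congr_deriv ?_
    simp only [quad, conjTranspose_smul, (h.herm hK hV _ (hm t ht)).eq,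
      star_trivial, Matrix.mul_add, Matrix.add_mul, Matrix.sub_mul, Matrix.mul_sub,
      Matrix.smul_mul, Matrix.mul_smul]
    module
  · rw [norm_smul, show ‖(-1 / 2 : ℝ)‖ = 1 / 2 by norm_num]
    exact mul_le_mul_of_nonneg_left (sig_norm hρ _) (by norm_num)

theorem qf_der (h : Sol ρ R K V Z) {U : Matrix n n ℂ} {k : n → ℝ} (hK : Dec K U k)
    (hV : ∀ t, (V t).PosSemidef) (i : n) : ∀ t ∈ Icc (-R) R,
    HasDerivWithinAt (fun t => qf U i (Z t))
      (sig ρ (Z t) * (qf U i (Z t * Z t) - 2 * k i * qf U i (Z t)) + qf U i (V t))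
      (Icc (-R) R) t := fun t ht => by
  refine ((qfL U i).toContinuousLinearMap.hasFDerivAt.comp_hasDerivWithinAt t
    (h.der t ht)).congr_deriv ?_
  change qf U i _ = _
  rw [qf_add, qf_smul, quad, (h.herm hK.herm hV t ht).eq, qf_sub, qf_sub, (hK.qf_mul i _).1,
    (hK.qf_mul i _).2]
  ring

theorem upper (h : Sol (2 * b) R K V Z) (hR : 0 ≤ R) (hb : 0 ≤ b) {U : Matrix n n ℂ} {k : n → ℝ}
    (hK : Dec K U k) (hV : ∀ t, (V t).PosSemidef) {M : ℝ} (hM : ∀ t ∈ Icc (-R) R, ‖V t‖ ≤ M)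
    {i : n} (hi : k i = b) : qf U i (Z R) ≤ M * Real.exp (2 * R) := by
  have hd := h.qf_der hK hV i
  have hM0 : 0 ≤ M := (norm_nonneg _).trans (hM R ⟨by linarith, le_rfl⟩)
  have := le_gronwallBound_of_liminf_deriv_right_le (δ := 0) (K := 1) (ε := M)
    (fun t ht => (hd t ht).continuousWithinAt)
    (fun t ht r hr => ((hd t (Ico_subset_Icc_self ht)).mono_of_mem_nhdsWithin
      (Icc_mem_nhdsGE_of_mem ht)).liminf_right_slope_le hr) (by simp [h.init, qf])
    (fun t ht => ?_) R ⟨by linarith, le_rfl⟩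
  · rw [gronwallBound_of_K_ne_0 one_ne_zero] at this
    simp only [zero_mul, div_one, one_mul, zero_add, sub_neg_eq_add, ← two_mul] at this
    linarith
  have ht' := Ico_subset_Icc_self ht
  have hz := h.psd (by linarith) hK.herm hV t ht'
  have a1 := qf_sq_le' U hz i
  have a2 := qf_nonneg U i hz
  have a3 := (qf_le_norm hK.l (hV t).1 i).trans (hM t ht')
  rw [hi]
  rcases le_total (2 * b + 1) ‖Z t‖ with h' | h'
  · rw [sig_eq_zero h']; linarith
  · have a4 : qf U i (Z t * Z t) - 2 * b * qf U i (Z t) ≤ qf U i (Z t) := by nlinarith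
    have a5 := mul_le_mul_of_nonneg_left a4 (sig_nonneg (ρ := 2 * b) (Z := Z t))
    have a6 := mul_le_of_le_one_left a2 (sig_le_one (ρ := 2 * b) (Z := Z t))
    linarith

theorem lower (h : Sol ρ R K V Z) {R₀ a : ℝ} (hR₀ : 0 ≤ R₀) (hR : R₀ ≤ R) (hρ : 0 ≤ ρ)
    {U : Matrix n n ℂ} {k : n → ℝ} (hK : Dec K U k) (hV : ∀ t, (V t).PosSemidef)
    (hVc : Continuous V) {i : n} (hi : k i = a) (ha : 0 ≤ a)
    (hL : 2 * a + 2 * R₀ * a ^ 2 < ∫ x in -R₀..R₀, qf U i (V x)) : 2 * a < qf U i (Z R) := by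
  have hd := h.qf_der hK hV i
  rw [hi] at hd
  have hc : Continuous fun x => qf U i (V x) :=
    (qfL U i).toContinuousLinearMap.continuous.comp hVc
  have hsq : ∀ t ∈ Icc (-R) R, qf U i (Z t) ^ 2 ≤ qf U i (Z t * Z t) := fun t ht =>
    qf_sq_le hK.r (h.herm hK.herm hV t ht) i
  have s1 : Icc (-R₀) R₀ ⊆ Icc (-R) R := Icc_subset_Icc (by linarith) hR
  have h1 := intervalIntegral.integral_le_sub_of_hasDeriv_right_of_le (a := -R₀) (b := R₀)
    (φ := fun x => qf U i (V x) - a ^ 2) (by linarith)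
    (fun t ht => ((hd t (s1 ht)).continuousWithinAt).mono s1)
    (fun t ht => (hd t (s1 (Ioo_subset_Icc_self ht))).mono_of_mem_nhdsWithin
      (Icc_mem_nhdsGT_of_mem ⟨by linarith [ht.1], by linarith [ht.2]⟩))
    (Continuous.integrableOn_Icc (by fun_prop)) fun t ht => by
      have a1 := hsq t (s1 (Ioo_subset_Icc_self ht))
      have a2 : -a ^ 2 ≤ qf U i (Z t * Z t) - 2 * a * qf U i (Z t) := by
        nlinarith [sq_nonneg (qf U i (Z t) - a)]
      have a3 := mul_le_mul_of_nonneg_left a2 (sig_nonneg (ρ := ρ) (Z := Z t))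
      have a4 := mul_le_of_le_one_left (sq_nonneg a) (sig_le_one (ρ := ρ) (Z := Z t))
      linarith
  rw [intervalIntegral.integral_sub (hc.intervalIntegrable _ _) intervalIntegrable_const,
    intervalIntegral.integral_const, smul_eq_mul] at h1
  have h2 := qf_nonneg U i (h.psd hρ hK.herm hV (-R₀) (s1 ⟨le_rfl, by linarith⟩))
  obtain ⟨η, hη, h3⟩ : ∃ η, 0 < η ∧ 2 * a - qf U i (Z R₀) = -η := ⟨_, by linarith, (neg_neg _).symm⟩
  have s2 : Icc R₀ R ⊆ Icc (-R) R := Icc_subset_Icc (by linarith) le_rfl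
  have hs : 0 < η / (R - R₀ + 1) := div_pos hη (by linarith)
  have hB : ∀ x ∈ Icc R₀ R, -η + η / (R - R₀ + 1) * (x - R₀) < 0 := fun x hx => by
    have : η / (R - R₀ + 1) * (R - R₀ + 1) = η := div_mul_cancel₀ _ (by linarith)
    nlinarith [hx.2]
  have h4 := image_le_of_deriv_right_lt_deriv_boundary (a := R₀) (b := R)
    (f := fun t => 2 * a - qf U i (Z t))
    (continuousOn_const.sub fun t ht => ((hd t (s2 ht)).continuousWithinAt).mono s2)
    (fun t ht => ((hd t (s2 (Ico_subset_Icc_self ht))).mono_of_mem_nhdsWithin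
      (Icc_mem_nhdsGE_of_mem ⟨by linarith [ht.1], ht.2⟩)).const_sub (2 * a))
    (B := fun x => -η + η / (R - R₀ + 1) * (x - R₀)) (B' := fun _ => η / (R - R₀ + 1))
    (by simp [h3]) (fun x => by
      simpa using (((hasDerivAt_id x).sub_const R₀).const_mul (η / (R - R₀ + 1))).const_add (-η))
    (fun t ht he => by
      have a0 := hB t (Ico_subset_Icc_self ht)
      have a1 := hsq t (s2 (Ico_subset_Icc_self ht))
      have a2 : 0 ≤ qf U i (Z t * Z t) - 2 * a * qf U i (Z t) := by nlinarith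
      have a3 := mul_nonneg (sig_nonneg (ρ := ρ) (Z := Z t)) a2
      have a4 := qf_nonneg U i (hV t)
      linarith) (show R ∈ Icc R₀ R from ⟨hR, le_rfl⟩)
  linarith [hB R ⟨hR, le_rfl⟩]

end Sol

theorem exists_riccati {R₀ R a b M : ℝ} (hR₀ : 0 ≤ R₀) (hR : R₀ ≤ R) (ha : 0 ≤ a) (hab : a ≤ b)
    (V : Matrix n n ℂ → ℝ → Matrix n n ℂ)
    (hc : Continuous fun q : Matrix n n ℂ × ℝ => V (hp q.1) q.2)
    (hV : ∀ H, H.IsHermitian → ∀ x, (V H x).PosSemidef)
    (hM : ∀ H, H.IsHermitian → ∀ x ∈ Icc (-R) R, ‖V H x‖ ≤ M)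
    (hb : M * Real.exp (2 * R) ≤ 2 * b)
    (hL : ∀ H U h i, Dec H U h → h i < a →
      2 * a + 2 * R₀ * a ^ 2 < ∫ x in -R₀..R₀, qf U i (V H x)) :
    ∃ (K U : Matrix n n ℂ) (k : n → ℝ), Dec K U k ∧ (∀ i, a ≤ k i) ∧ ∃ X : ℝ → Matrix n n ℂ,
      Continuous X ∧ (∀ x, (X x).IsHermitian) ∧ (∀ x, (K - X x).PosSemidef) ∧
      (∀ x, (K + X x).PosSemidef) ∧
      (∀ x ∈ Ioo (-R) R, HasDerivAt X (K * K - X x * X x - V K x) x) ∧
      (∀ x, x ≤ -R → X x = K) ∧ (∀ x, R ≤ x → X x = -K) := by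
  have hb0 : 0 ≤ b := ha.trans hab
  have hR0 : -R ≤ R := by linarith
  have hM0 : 0 ≤ M := (norm_nonneg _).trans (hM 0 isHermitian_zero R ⟨hR0, le_rfl⟩)
  let cl : ℝ → ℝ := fun t => max a (min b t)
  have hcl : Continuous cl := by fun_prop
  let Kf : Matrix n n ℂ → Matrix n n ℂ := fun H => cfc cl (hp H)
  have hKc : Continuous Kf := continuous_cfc continuous_hp hp_herm hcl
  have hKn : ∀ H, ‖Kf H‖ ≤ b := fun H => by
    obtain ⟨U, h, hU⟩ := exists_dec (hp_herm H)
    refine (hU.cfc cl).norm_le hb0 fun i => abs_le.2 ⟨?_, max_le hab (min_le_left _ _)⟩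
    exact le_trans (by linarith) (le_max_left _ _)
  obtain ⟨Z, hZ0, hZ, hZb, hZc⟩ := exists_param_flow
    (fun H t Z => sig (2 * b) Z • quad (Kf H) Z + V (hp H) t) hR0
    ⟨(2 * b + 1) * (2 * b + 1) + 2 * b * (2 * b + 1) + (2 * (2 * b + 1) + 2 * b), by positivity⟩
    ⟨(2 * b + 1) * (2 * b + 1) + 2 * b * (2 * b + 1) + M, by positivity⟩
    (fun H t => LipschitzWith.of_dist_le_mul fun Z Z' => by
      rw [dist_add_right, dist_eq_norm, dist_eq_norm]
      exact fld_lip (by linarith) (hKn H))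
    (fun H t ht Z => (norm_add_le _ _).trans
      (add_le_add (fld_norm (by linarith) (hKn H)) (hM _ (hp_herm H) t ht)))
    (by
      have c1 : Continuous fun q : Matrix n n ℂ × ℝ × Matrix n n ℂ => sig (2 * b) q.2.2 := by
        unfold sig; fun_prop
      have c2 : Continuous fun q : Matrix n n ℂ × ℝ × Matrix n n ℂ => quad (Kf q.1) q.2.2 := by
        unfold quad; fun_prop
      exact (c1.smul c2).add
        (hc.comp (f := fun q : Matrix n n ℂ × ℝ × Matrix n n ℂ => (q.1, q.2.1)) (by fun_prop)))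
  obtain ⟨H, hH⟩ := exists_add_eq_zero (fun H => Kf H - Z H R) (hKc.sub hZc)
    (fun H => (norm_sub_le _ _).trans (add_le_add (hKn H) (hZb H)))
  have sol : Sol (2 * b) R (Kf H) (V (hp H)) (Z H) := ⟨hZ0 H, hZ H⟩
  have hKh : (Kf H).IsHermitian := cfc_herm (hp_herm H) cl
  have hVH := hV _ (hp_herm H)
  have e1 : Z H R = H + Kf H := by rw [← sub_eq_zero, ← neg_eq_zero, ← hH]; abel
  have hHh : H.IsHermitian := by
    have : H = Z H R - Kf H := by rw [e1]; abel
    rw [this]; exact (sol.herm hKh hVH R ⟨hR0, le_rfl⟩).sub hKh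
  obtain ⟨U, h, hU⟩ := exists_dec hHh
  have hK : Dec (Kf H) U fun i => cl (h i) := by
    simp only [Kf, hp_eq hHh]; exact hU.cfc cl
  have e2 : ∀ i, qf U i (Z H R) = h i + cl (h i) := fun i => by
    rw [e1, qf_add, hU.qf_eq, hK.qf_eq]
  have h1 : ∀ i, h i ≤ b := fun i => by
    by_contra hc'
    have a1 : cl (h i) = b := by
      simp only [cl]; rw [min_eq_left (not_le.1 hc').le, max_eq_right hab]
    have := sol.upper (by linarith) hb0 hK hVH (hM _ (hp_herm H)) a1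
    rw [e2, a1] at this
    linarith [not_le.1 hc']
  have h2 : ∀ i, a ≤ h i := fun i => by
    by_contra hc'
    have a1 : cl (h i) = a := by
      simp only [cl]; exact max_eq_left ((min_le_right _ _).trans (not_le.1 hc').le)
    have := sol.lower hR₀ hR (by linarith) hK hVH
      (hc.comp (f := fun x : ℝ => (H, x)) (by fun_prop)) a1 ha
      (by rw [hp_eq hHh]; exact hL H U h i hU (not_le.1 hc'))
    rw [e2, a1] at this
    linarith [not_le.1 hc']
  have e3 : Kf H = H := hK.unique hU fun i => by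
    simp only [cl]; rw [min_eq_right (h1 i), max_eq_right (h2 i)]
  rw [e3] at sol e1
  rw [hp_eq hHh] at sol hVH
  have p1 := sol.psd (by linarith) hHh hVH
  have p2 := sol.psd' (by linarith) hHh hVH e1
  refine ⟨H, U, h, hU, h2, fun x => H - Z H (projIcc (-R) R hR0 x), ?_, fun x => ?_, fun x => ?_,
    fun x => ?_, fun x hx => ?_, fun x hx => ?_, fun x hx => ?_⟩
  · exact continuous_const.sub (sol.cont.comp_continuous
      (continuous_subtype_val.comp continuous_projIcc) fun t => (projIcc _ _ hR0 t).2)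
  · exact hHh.sub (p1 _ (projIcc _ _ hR0 x).2).1
  · simpa using p1 _ (projIcc _ _ hR0 x).2
  · simpa [add_sub_assoc] using p2 _ (projIcc _ _ hR0 x).2
  · have hx' := Ioo_subset_Icc_self hx
    have a1 : ‖Z H x‖ ≤ 2 * b := by
      obtain ⟨W, z, hz⟩ := exists_dec (p1 x hx').1
      have a2 := hz.psd_iff.1 (p1 x hx')
      have a3 := (((hU.const (2 * b)).sub (hU.add hU)).psd_iff.2
        fun i => by linarith [h1 i]).add (p2 x hx')
      rw [sub_add_sub_cancel] at a3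
      have a4 := ((hz.const (2 * b)).sub hz).psd_iff.1 a3
      exact hz.norm_le (by linarith) fun i => abs_le.2 ⟨by linarith [a2 i], by linarith [a4 i]⟩
    have a5 := ((sol.der x hx').hasDerivAt (Icc_mem_nhds hx.1 hx.2)).const_sub H
    rw [sig_eq_one a1, one_smul, quad, (p1 x hx').1.eq] at a5
    refine (a5.congr_deriv ?_).congr_of_eventuallyEq ?_
    · simp only [projIcc_of_mem hR0 hx']; noncomm_ring
    · filter_upwards [Icc_mem_nhds hx.1 hx.2] with y hy
      simp only [projIcc_of_mem hR0 hy]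
  · simp only [projIcc_of_le_left hR0 hx, sol.init, sub_zero]
  · simp only [projIcc_of_right_le hR0 hx, e1]; abel

end Vale.Agent.P371
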