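import Vale.Agent.P371.Energy
import Vale.Agent.P371.Ric
import Vale.Agent.P371.Calib3

/-!
The reduction of the eigenvalue bound to the calibration inequality.
-/

namespace Vale.Agent.P371

open Matrix Set Filter MeasureTheory
open scoped ComplexOrder Topology Matrix.Norms.L2Operator

variable {m n : Type} [Fintype m] [DecidableEq m] [Fintype n] [DecidableEq n]

theorem rpow_tangent {q η g : ℝ} (hq : 1 ≤ q) (hη : 0 < η) (hg : 0 ≤ g) :
    η ^ (q - 1) * (g - η) ≤ g ^ q := by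
  rcases le_total g η with h | h
  · exact (mul_nonpos_of_nonneg_of_nonpos (Real.rpow_nonneg hη.le _) (by linarith)).trans
      (Real.rpow_nonneg hg _)
  · have h0 : 0 < g := hη.trans_le h
    have h1 : η ^ (q - 1) ≤ g ^ (q - 1) := Real.rpow_le_rpow hη.le h (by linarith)
    have h2 : g ^ q = g ^ (q - 1) * g := by rw [Real.rpow_sub_one h0.ne']; field_simp
    rw [h2]
    exact mul_le_mul h1 (by linarith) (by linarith) (Real.rpow_nonneg hg _)

theorem pow_facts {θ : ℝ} (hθ : 0 < θ) {G : Matrix n n ℂ} (hG : G.PosSemidef) {B : ℝ}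
    (hB : rtr G ≤ B) :
    (cfc (fun t : ℝ => t ^ θ⁻¹) G).PosSemidef ∧ ‖cfc (fun t : ℝ => t ^ θ⁻¹) G‖ ≤ B ^ θ⁻¹ ∧
      0 ≤ rtr (G * cfc (fun t : ℝ => t ^ θ⁻¹) G) ∧
      rtr (G * cfc (fun t : ℝ => t ^ θ⁻¹) G) ≤ B ^ θ⁻¹ * rtr G ∧
      rtr (cfc (fun t : ℝ => t ^ (1 + θ)) (cfc (fun t : ℝ => t ^ θ⁻¹) G))
        = rtr (G * cfc (fun t : ℝ => t ^ θ⁻¹) G) := by
  obtain ⟨U, g, hg⟩ := exists_dec hG.1
  have h0 := hg.psd_iff.1 hG
  have hq := (inv_pos.2 hθ).le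
  have h1 : ∀ i, g i ^ θ⁻¹ ≤ B ^ θ⁻¹ := fun i => Real.rpow_le_rpow (h0 i)
    (le_trans (hg.rtr_eq ▸ Finset.single_le_sum (fun i _ => h0 i) (Finset.mem_univ i)) hB) hq
  have h2 : ∀ i, 0 ≤ g i ^ θ⁻¹ := fun i => Real.rpow_nonneg (h0 i) _
  have hc := hg.cfc fun t : ℝ => t ^ θ⁻¹
  refine ⟨hc.psd_iff.2 h2, hc.norm_le (Real.rpow_nonneg ((rtr_nonneg hG).trans hB) _)
    fun i => by rw [abs_of_nonneg (h2 i)]; exact h1 i, ?_, ?_, ?_⟩
  · rw [(hg.mul hc).rtr_eq]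
    exact Finset.sum_nonneg fun i _ => mul_nonneg (h0 i) (h2 i)
  · rw [(hg.mul hc).rtr_eq, hg.rtr_eq, Finset.mul_sum]
    exact Finset.sum_le_sum fun i _ => by
      rw [mul_comm]; exact mul_le_mul_of_nonneg_right (h1 i) (h0 i)
  · rw [(hg.mul hc).rtr_eq, (hc.cfc _).rtr_eq]
    refine Finset.sum_congr rfl fun i _ => ?_
    rw [← Real.rpow_mul (h0 i), mul_add, mul_one, inv_mul_cancel₀ hθ.ne', add_comm,
      Real.rpow_add' (h0 i) (by positivity), Real.rpow_one]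

theorem qf_pow_lower {q η : ℝ} (hq : 1 ≤ q) (hη : 0 < η) {G U : Matrix n n ℂ} (hG : G.PosSemidef)
    (hU : Uᴴ * U = 1) (i : n) :
    η ^ (q - 1) * (qf U i G - η) ≤ qf U i (cfc (fun t : ℝ => t ^ q) G) := by
  obtain ⟨V, g, hg⟩ := exists_dec hG.1
  have := qf_le U i (((hg.cfc fun t : ℝ => t ^ q).sub
    ((hg.sub (hg.const η)).smul (η ^ (q - 1)))).psd_iff.2
      fun j => sub_nonneg.2 (rpow_tangent hq hη (hg.psd_iff.1 hG j)))
  rw [qf_smul, qf_sub, qf_smul] at this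
  simpa [qf, hU] using this

omit [DecidableEq m] in
theorem window_mass {Ψ : ℝ → Matrix m n ℂ} (h2 : ML2 Ψ) (hO : mint (fun x => (Ψ x)ᴴ * Ψ x) = 1)
    {R₀ : ℝ} (hR₀ : 0 ≤ R₀)
    (ht : (∫ x, rtr ((Ψ x)ᴴ * Ψ x)) - ∫ x in -R₀..R₀, rtr ((Ψ x)ᴴ * Ψ x) ≤ 1 / 2)
    {T : Matrix n n ℂ} (hT : T.IsHermitian) (U : Matrix n n ℂ) (i : n) :
    qf U i (T * T) / 2 ≤ ∫ x in -R₀..R₀, qf U i ((Ψ x * T)ᴴ * (Ψ x * T)) := by
  have iG := h2.ct.mul h2
  have e : ∀ A : Matrix n n ℂ, qf U i (T * A * T) = qf (T * U) i A := fun A => by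
    simp only [qf, conjTranspose_mul, hT.eq, Matrix.mul_assoc]
  have e1 : ∀ x, qf U i ((Ψ x * T)ᴴ * (Ψ x * T)) = qf (T * U) i ((Ψ x)ᴴ * Ψ x) := fun x => by
    rw [← e, conjTranspose_mul, hT.eq]; simp only [Matrix.mul_assoc]
  have e2 : qf U i (T * T) = qf (T * U) i 1 := by rw [← e, Matrix.mul_one]
  obtain ⟨i1, i2⟩ := iG.lin (qfL (T * U) i)
  change Integrable fun x : ℝ => qf (T * U) i ((Ψ x)ᴴ * Ψ x) at i1
  change ∫ x : ℝ, qf (T * U) i ((Ψ x)ᴴ * Ψ x) = qf (T * U) i _ at i2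
  have h0 := qf_nonneg (T * U) i PosSemidef.one
  have := tail_le i1 (iG.rtr.const_mul (qf (T * U) i 1)) (fun x => by
    have := qf_le (T * U) i (le_rtr_one (posSemidef_conjTranspose_mul_self (Ψ x)))
    rwa [qf_smul, mul_comm] at this) (show -R₀ ≤ R₀ by linarith)
  rw [integral_const_mul, intervalIntegral.integral_const_mul, i2, hO, ← mul_sub] at this
  simp only [e1, e2]
  nlinarith

theorem reduction {θ : ℝ} (hθ : θ ∈ Ioo (0 : ℝ) 1) {Ψ Ψ' : ℝ → Matrix m n ℂ}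
    {W : ℝ → Matrix m m ℂ} {Λ : Matrix n n ℂ} (hp' : MPrim Ψ Ψ') (h2 : ML2 Ψ) (h2' : ML2 Ψ')
    (hW : ∀ x, (W x).PosSemidef)
    (hI : Integrable fun x => rtr (cfc (fun t : ℝ => t ^ (1 + θ)) (W x)))
    (iW : MInt fun x => (Ψ x)ᴴ * W x * Ψ x) (hO : mint (fun x => (Ψ x)ᴴ * Ψ x) = 1)
    (hE : mint (fun x => (Ψ' x)ᴴ * Ψ' x) = mint (fun x => (Ψ x)ᴴ * W x * Ψ x) - Λ)
    (T : ℝ → Matrix n n ℂ → Matrix n n ℂ) {μ₀ A : ℝ} (hμ₀ : 0 < μ₀)
    (T1 : ∀ a, 0 < a → Continuous fun H => T a (hp H))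
    (T2 : ∀ a H, H.IsHermitian → (T a H).IsHermitian)
    (T3 : ∀ a, 0 < a → ∃ M, ∀ H, H.IsHermitian → rtr (T a H * T a H) ≤ M)
    (T4 : ∀ a, 0 < a → a ≤ 1 → ∀ H U h i, Dec H U h → h i < a → μ₀ ≤ qf U i (T a H * T a H))
    (T5 : ∀ a, 0 < a → ∀ H U h, Dec H U h → (∀ i, a ≤ h i) →
      A ≤ rtr ((Λ - H * H) * (T a H * T a H)) + cth θ * ∑ i, h i ^ (2 * θ + 1)) :
    A ≤ kap θ * ∫ x, rtr (cfc (fun t : ℝ => t ^ (1 + θ)) (W x)) := by
  have hq0 : 0 < θ⁻¹ := inv_pos.2 hθ.1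
  have hq1 : 1 ≤ θ⁻¹ := one_le_inv_iff₀.2 ⟨hθ.1, hθ.2.le⟩
  have hΨ := hp'.cont
  have iG := h2.ct.mul h2
  have iS := iG.rtr
  obtain ⟨C, hC⟩ : ∃ C, ∀ x, rtr ((Ψ x)ᴴ * Ψ x) ≤ C :=
    ⟨_, fun x => (le_abs_self _).trans
      ((hp'.ct.mul hp').rtr.bdd ((h2'.ct.mul h2).add (h2.ct.mul h2')).rtr x)⟩
  obtain ⟨R₀, hR₀, ht₀⟩ := exists_tail iS (η := 1 / 2) (by norm_num) 1
  obtain ⟨η, hη, hη'⟩ : ∃ η, 0 < η ∧ 2 * R₀ * η = μ₀ / 4 :=
    ⟨μ₀ / (8 * R₀), by positivity, by field_simp; norm_num⟩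
  obtain ⟨μ, hμ, hμ'⟩ : ∃ μ, 0 < μ ∧ μ = (1 + θ⁻¹) * (η ^ (θ⁻¹ - 1) * (μ₀ / 4)) :=
    ⟨_, by positivity, rfl⟩
  obtain ⟨a, ha, ha1, ha2⟩ : ∃ a, 0 < a ∧ a ≤ 1 ∧ 2 * a + 2 * R₀ * a ^ 2 < μ := by
    refine ⟨min 1 (μ / (3 + 2 * R₀)), by positivity, min_le_left _ _, ?_⟩
    have a1 : min 1 (μ / (3 + 2 * R₀)) * (3 + 2 * R₀) ≤ μ :=
      (le_div_iff₀ (by positivity)).1 (min_le_right _ _)
    have a2 : 0 < min 1 (μ / (3 + 2 * R₀)) := by positivity
    have a3 := min_le_left 1 (μ / (3 + 2 * R₀))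
    generalize min 1 (μ / (3 + 2 * R₀)) = a at *
    nlinarith [mul_nonneg (mul_nonneg (show 0 ≤ R₀ by linarith) a2.le) (sub_nonneg.2 a3)]
  obtain ⟨Ma, hMa⟩ := T3 a ha
  have hTT : ∀ H, H.IsHermitian → (T a H * T a H).PosSemidef := fun H hH => by
    have := posSemidef_conjTranspose_mul_self (T a H)
    rwa [(T2 a H hH).eq] at this
  have hMa0 : 0 ≤ Ma := (rtr_nonneg (hTT 0 isHermitian_zero)).trans (hMa 0 isHermitian_zero)
  have hS0 : ∀ x, 0 ≤ rtr ((Ψ x)ᴴ * Ψ x) := fun x =>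
    rtr_nonneg (posSemidef_conjTranspose_mul_self _)
  have hG1 : ∀ H, H.IsHermitian → ∀ x,
      rtr ((Ψ x * T a H)ᴴ * (Ψ x * T a H)) ≤ Ma * rtr ((Ψ x)ᴴ * Ψ x) := fun H hH x => by
    have := rtr_mul_le (posSemidef_conjTranspose_mul_self (Ψ x)) (hTT H hH)
    rw [conjTranspose_mul, (T2 a H hH).eq, Matrix.mul_assoc, rtr_comm, ← Matrix.mul_assoc,
      Matrix.mul_assoc]
    nlinarith [mul_le_mul_of_nonneg_left (hMa H hH) (hS0 x)]
  have hpf := fun H (hH : H.IsHermitian) x => pow_facts hθ.1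
    (posSemidef_conjTranspose_mul_self (Ψ x * T a H))
    ((hG1 H hH x).trans (mul_le_mul_of_nonneg_left (hC x) hMa0))
  set B := (Ma * C) ^ θ⁻¹
  have hB0 : 0 ≤ B := (norm_nonneg _).trans (hpf 0 isHermitian_zero 0).2.1
  refine le_of_forall_pos_le_add fun ε hε => ?_
  obtain ⟨R, hR, ht⟩ := exists_tail iS (η := ε / (B * Ma + 1)) (by positivity) R₀
  have hcq : Continuous fun t : ℝ => t ^ θ⁻¹ := Real.continuous_rpow_const hq0.le
  obtain ⟨K, U, k, hK, hk, X, hX, hXh, hup, hlo, hd, hl, hr⟩ := exists_riccati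
    (R₀ := R₀) (a := a) (b := max a ((1 + θ⁻¹) * B * Real.exp (2 * R) / 2)) (M := (1 + θ⁻¹) * B)
    (by linarith) hR ha.le (le_max_left _ _)
    (fun H x => (1 + θ⁻¹) • cfc (fun t : ℝ => t ^ θ⁻¹) ((Ψ x * T a H)ᴴ * (Ψ x * T a H)))
    (by
      have c1 := T1 a ha
      have c0 : Continuous fun q : Matrix n n ℂ × ℝ => Ψ q.2 * T a (hp q.1) :=
        (hΨ.comp continuous_snd).matrix_mul (c1.comp continuous_fst)
      have c2 := c0.matrix_conjTranspose.matrix_mul c0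
      exact (continuous_cfc c2
        (fun q => (posSemidef_conjTranspose_mul_self _).1) hcq).const_smul (1 + θ⁻¹))
    (fun H hH x => (hpf H hH x).1.smul (by linarith))
    (fun H hH x _ => by
      rw [norm_smul, Real.norm_of_nonneg (by linarith)]
      exact mul_le_mul_of_nonneg_left (hpf H hH x).2.1 (by linarith))
    (by linarith [le_max_right a ((1 + θ⁻¹) * B * Real.exp (2 * R) / 2)])
    (fun H U h i hU hi => by
      have a1 := T4 a ha ha1 H U h i hU hi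
      have a2 := window_mass h2 hO (by linarith) ht₀ (T2 a H hU.herm) U i
      have c1 : Continuous fun x => (Ψ x * T a H)ᴴ * (Ψ x * T a H) := by fun_prop
      have c2 : Continuous fun x => qf U i ((Ψ x * T a H)ᴴ * (Ψ x * T a H)) :=
        (qfL U i).toContinuousLinearMap.continuous.comp c1
      have c3 : Continuous fun x =>
          qf U i (cfc (fun t : ℝ => t ^ θ⁻¹) ((Ψ x * T a H)ᴴ * (Ψ x * T a H))) :=
        (qfL U i).toContinuousLinearMap.continuous.comp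
          (continuous_cfc c1 (fun x => (posSemidef_conjTranspose_mul_self _).1) hcq)
      have a3 := intervalIntegral.integral_mono_on (μ := volume) (show -R₀ ≤ R₀ by linarith)
        (((c2.sub continuous_const).const_mul (η ^ (θ⁻¹ - 1))).intervalIntegrable _ _)
        (c3.intervalIntegrable _ _) fun x _ =>
          qf_pow_lower hq1 hη (posSemidef_conjTranspose_mul_self _) hU.l i
      simp only [Pi.sub_apply] at a3
      rw [intervalIntegral.integral_const_mul, intervalIntegral.integral_sub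
        (c2.intervalIntegrable _ _) intervalIntegrable_const, intervalIntegral.integral_const,
        smul_eq_mul] at a3
      simp only [qf_smul]
      rw [intervalIntegral.integral_const_mul]
      refine ha2.trans_le (hμ' ▸ mul_le_mul_of_nonneg_left (le_trans ?_ a3) (by linarith))
      exact mul_le_mul_of_nonneg_left (by linarith) (Real.rpow_nonneg hη.le _))
  have hKp : K.PosDef := hK.pd_iff.2 fun i => ha.trans_le (hk i)
  have hT := T2 a K hK.herm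
  have h5 := T5 a ha K U k hK hk
  have pf := hpf K hK.herm
  have g1 := hG1 K hK.herm
  generalize T a K = S at *
  have c1 : Continuous fun x => (Ψ x * S)ᴴ * (Ψ x * S) := by fun_prop
  have c2 := continuous_cfc c1 (fun x => (posSemidef_conjTranspose_mul_self _).1) hcq
  have pΦ : MPrim (fun x => Ψ x * S) fun x => Ψ' x * S := by
    simpa using hp'.mul (MPrim.const S)
  have E1 := energy_lower pΦ (h2.mul_const S) (h2'.mul_const S) (by linarith) hKp.posSemidef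
    (c2.const_smul (1 + θ⁻¹)) hX hXh hup hlo hd hl hr
  have E2 := calibB hθ (show -R ≤ R by linarith) hKp hX c2 hXh hup hlo (fun x => (pf x).1) hd
    (hl _ le_rfl) (hr _ le_rfl)
  simp only [Pi.smul_apply, Matrix.mul_smul, rtr_smul, fun x => (pf x).2.2.2.2, (hK.cfc _).rtr_eq] at E1 E2
  rw [intervalIntegral.integral_const_mul] at E1
  have cy : Continuous fun x => rtr ((Ψ x * S)ᴴ * (Ψ x * S)
      * cfc (fun t : ℝ => t ^ θ⁻¹) ((Ψ x * S)ᴴ * (Ψ x * S))) := continuous_rtr (c1.mul c2)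
  have by1 : ∀ x, rtr ((Ψ x * S)ᴴ * (Ψ x * S)
      * cfc (fun t : ℝ => t ^ θ⁻¹) ((Ψ x * S)ᴴ * (Ψ x * S))) ≤ B * Ma * rtr ((Ψ x)ᴴ * Ψ x) :=
    fun x => (pf x).2.2.2.1.trans (by
      rw [mul_assoc]; exact mul_le_mul_of_nonneg_left (g1 x) hB0)
  have iy := (iS.const_mul (B * Ma)).mono' cy.aestronglyMeasurable
    (Eventually.of_forall fun x => by rw [Real.norm_of_nonneg (pf x).2.2.1]; exact by1 x)
  have E4 := tail_le iy (iS.const_mul (B * Ma)) by1 (show -R ≤ R by linarith)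
  rw [integral_const_mul, intervalIntegral.integral_const_mul, ← mul_sub] at E4
  have E4' : B * Ma * ((∫ x, rtr ((Ψ x)ᴴ * Ψ x)) - ∫ x in -R..R, rtr ((Ψ x)ᴴ * Ψ x)) ≤ ε := by
    refine (mul_le_mul_of_nonneg_left ht (by positivity)).trans ?_
    rw [mul_div_assoc', div_le_iff₀ (by positivity)]
    nlinarith
  have r1 : ∀ (P Q : Matrix m n ℂ) (D : Matrix n n ℂ),
      rtr ((P * S)ᴴ * (Q * S) * D) = rtr (Pᴴ * Q * (S * D * S)) := fun P Q D => by
    rw [conjTranspose_mul, hT.eq, Matrix.mul_assoc, Matrix.mul_assoc, rtr_comm]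
    simp only [Matrix.mul_assoc]
  have r2 : ∀ x, rtr ((Ψ' x * S)ᴴ * (Ψ' x * S)) = rtr ((Ψ' x)ᴴ * Ψ' x * (S * S)) := fun x => by
    simpa using r1 (Ψ' x) (Ψ' x) 1
  have r3 : ∀ x, rtr ((Ψ x * S)ᴴ * W x * (Ψ x * S)) = rtr ((Ψ x)ᴴ * W x * Ψ x * (S * S)) :=
    fun x => by simpa [Matrix.mul_assoc] using r1 (Ψ x) (W x * Ψ x) 1
  have E3 := integral_mono (iW.rtr_mul (S * S)).1 ((hI.const_mul (kap θ)).add iy)
    fun x => (r3 x).symm.le.trans (young_trace hθ.1 (hW x) (Ψ x * S))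
  simp only [Pi.add_apply] at E3
  rw [integral_add (hI.const_mul _) iy, integral_const_mul, (iW.rtr_mul _).2] at E3
  have r4 : ∫ x, rtr ((Ψ x * S)ᴴ * (Ψ x * S) * (K * K)) = rtr (K * K * (S * S)) := by
    simp only [r1]
    rw [(iG.rtr_mul _).2, hO, Matrix.one_mul, Matrix.mul_assoc, rtr_comm, Matrix.mul_assoc]
  simp only [r2] at E1
  rw [r4, ((h2'.ct.mul h2').rtr_mul _).2, hE, Matrix.sub_mul, rtr_sub] at E1
  rw [Matrix.sub_mul, rtr_sub] at h5
  linarith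

theorem matrix_bound {θ : ℝ} (hθ : θ ∈ Ioo (0 : ℝ) 1) {Ψ Ψ' : ℝ → Matrix m n ℂ}
    {W : ℝ → Matrix m m ℂ} {lam : n → ℝ} (hlam : ∀ j, 0 < lam j) (hp' : MPrim Ψ Ψ') (h2 : ML2 Ψ)
    (h2' : ML2 Ψ') (hW : ∀ x, (W x).PosSemidef)
    (hI : Integrable fun x => rtr (cfc (fun t : ℝ => t ^ (1 + θ)) (W x)))
    (iW : MInt fun x => (Ψ x)ᴴ * W x * Ψ x) (hO : mint (fun x => (Ψ x)ᴴ * Ψ x) = 1)
    (hE : mint (fun x => (Ψ' x)ᴴ * Ψ' x) = mint (fun x => (Ψ x)ᴴ * W x * Ψ x) - dg lam)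
    (hc : 0 < cth θ) :
    cth θ * ∑ j, lam j ^ (θ + 1 / 2)
      ≤ kap θ * ∫ x, rtr (cfc (fun t : ℝ => t ^ (1 + θ)) (W x)) := by
  set γ := θ + 1 / 2 with hγ
  set c := cth θ
  have hγ0 : 0 < γ := by linarith [hθ.1]
  have hsq : ∀ h : ℝ, 0 < h → (h * h) ^ γ = h ^ (2 * θ + 1) := fun h hh => by
    rw [Real.mul_rpow hh.le hh.le, ← Real.rpow_add hh]; congr 1; linarith
  have dL := Dec.ofDg lam
  rcases le_total 1 γ with h1 | h1
  · have hs : ∀ j, 0 < c * (γ * lam j ^ (γ - 1)) := fun j => by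
      have := Real.rpow_pos_of_pos (hlam j) (γ - 1); positivity
    have eT : dg (fun j => √(c * (γ * lam j ^ (γ - 1)))) * dg (fun j => √(c * (γ * lam j ^ (γ - 1))))
        = dg fun j => c * (γ * lam j ^ (γ - 1)) := by
      rw [dg_mul]; congr 1; ext j; exact Real.mul_self_sqrt (hs j).le
    obtain ⟨μ₀, hμ₀, hμ⟩ : ∃ μ₀, 0 < μ₀ ∧ ∀ j, μ₀ ≤ c * (γ * lam j ^ (γ - 1)) := by
      rcases isEmpty_or_nonempty n with hn | hn
      · exact ⟨1, one_pos, fun j => isEmptyElim j⟩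
      · obtain ⟨j, hj⟩ := Finite.exists_min fun j => c * (γ * lam j ^ (γ - 1))
        exact ⟨_, hs j, hj⟩
    refine reduction hθ hp' h2 h2' hW hI iW hO hE
      (fun _ _ => dg fun j => √(c * (γ * lam j ^ (γ - 1)))) hμ₀ (fun _ _ => continuous_const)
      (fun _ _ _ => dg_herm _) (fun _ _ => ⟨_, fun _ _ => le_rfl⟩) (fun a _ _ H U h i hU _ => ?_)
      fun a ha H U h hU hh => ?_
    · have := qf_le U i (A := μ₀ • 1) (B := dg fun j => c * (γ * lam j ^ (γ - 1))) (by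
        rw [← dg_const, dg_sub]; exact dg_psd.2 fun j => sub_nonneg.2 (hμ j))
      rw [qf_smul] at this
      rw [eT]; simpa [qf, hU.l] using this
    · have hh0 : ∀ i, 0 < h i := fun i => ha.trans_le (hh i)
      have := (Dec.ofDg fun j => c * (γ * lam j ^ (γ - 1))).ds_le
        (Dec.ofDg fun j => c * ((γ - 1) * lam j ^ γ)) (hU.mul hU)
        (hU.other fun i => c * h i ^ (2 * θ + 1)) 1 fun j i => by
          have := mul_le_mul_of_nonneg_left
            (klein_convex h1 (hlam j) (mul_self_nonneg (h i))) hc.le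
          rw [hsq _ (hh0 i)] at this
          linarith
      simp only [conjTranspose_one, Matrix.one_mul, Matrix.mul_one, (hU.other _).rtr_eq,
        rtr_dg] at this
      rw [eT, Matrix.sub_mul, rtr_sub, dg_mul, rtr_dg, rtr_comm, Finset.mul_sum, Finset.mul_sum]
      have e : ∑ j, lam j * (c * (γ * lam j ^ (γ - 1)))
          = ∑ j, c * lam j ^ γ + ∑ j, c * ((γ - 1) * lam j ^ γ) := by
        rw [← Finset.sum_add_distrib]
        refine Finset.sum_congr rfl fun j _ => ?_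
        rw [Real.rpow_sub_one (hlam j).ne']
        have := (hlam j).ne'
        field_simp; ring
      linarith
  · have hcg : 0 < c * γ := by positivity
    let f : ℝ → ℝ → ℝ := fun a t => √(c * γ) * max a t ^ (γ - 1)
    have hf : ∀ a t, 0 < a → f a t * f a t = c * γ * (max a t * max a t) ^ (γ - 1) :=
      fun a t ha => by
        have : 0 ≤ max a t := ha.le.trans (le_max_left _ _)
        rw [Real.mul_rpow this this]
        linear_combination (max a t ^ (γ - 1)) ^ 2 * Real.mul_self_sqrt hcg.le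
    refine reduction hθ hp' h2 h2' hW hI iW hO hE (fun a H => cfc (f a) H) hcg (fun a ha => ?_)
      (fun _ _ hH => cfc_herm hH _)
      (fun a ha => ⟨∑ _i : n, c * γ * (a * a) ^ (γ - 1), fun H hH => ?_⟩)
      (fun a ha ha1 H U h i hU hi => ?_) fun a ha H U h hU hh => ?_
    · refine continuous_cfc continuous_hp hp_herm (continuous_const.mul
        (Continuous.rpow_const (by fun_prop) fun t => Or.inl ?_))
      exact (ha.trans_le (le_max_left _ _)).ne'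
    · obtain ⟨U, h, hU⟩ := exists_dec hH
      rw [((hU.cfc _).mul (hU.cfc _)).rtr_eq]
      refine Finset.sum_le_sum fun i _ => ?_
      rw [hf _ _ ha]
      exact mul_le_mul_of_nonneg_left (Real.rpow_le_rpow_of_nonpos (mul_pos ha ha)
        (mul_self_le_mul_self ha.le (le_max_left _ _)) (by linarith)) hcg.le
    · rw [((hU.cfc _).mul (hU.cfc _)).qf_eq, hf _ _ ha, max_eq_left hi.le]
      exact le_mul_of_one_le_right hcg.le (Real.one_le_rpow_of_pos_of_le_one_of_nonpos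
        (mul_pos ha ha) (by nlinarith) (by linarith))
    · have hh0 : ∀ i, 0 < h i := fun i => ha.trans_le (hh i)
      have dS := ((hU.cfc (f a)).mul (hU.cfc (f a))).congr
        (e := fun i => c * γ * (h i * h i) ^ (γ - 1)) fun i => by
          rw [hf _ _ ha, max_eq_right (hh i)]
      have := dS.le_ds (hU.other fun i => c * ((γ - 1) * h i ^ (2 * θ + 1))) dL
        (Dec.ofDg fun j => c * lam j ^ γ) 1 fun i j => by
          have := mul_le_mul_of_nonneg_left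
            (klein_concave hγ0.le h1 (mul_pos (hh0 i) (hh0 i)) (hlam j).le) hc.le
          rw [hsq _ (hh0 i)] at this
          linarith
      simp only [conjTranspose_one, Matrix.one_mul, Matrix.mul_one, (hU.other _).rtr_eq,
        rtr_dg] at this
      rw [Matrix.sub_mul, rtr_sub, ((hU.mul hU).mul dS).rtr_eq, rtr_comm, Finset.mul_sum,
        Finset.mul_sum]
      have e : ∑ i, h i * h i * (c * γ * (h i * h i) ^ (γ - 1))
          = ∑ i, c * h i ^ (2 * θ + 1) + ∑ i, c * ((γ - 1) * h i ^ (2 * θ + 1)) := by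
        rw [← Finset.sum_add_distrib]
        refine Finset.sum_congr rfl fun i _ => ?_
        rw [Real.rpow_sub_one (mul_pos (hh0 i) (hh0 i)).ne', hsq _ (hh0 i)]
        have := (hh0 i).ne'
        field_simp; ring
      linarith

end Vale.Agent.P371
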