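import Vale.Agent.P371.Ode

/-!
Primitives of locally integrable functions, scalar and matrix valued.
-/

namespace Vale.Agent.P371

open Matrix Set Filter MeasureTheory
open scoped ComplexOrder Topology

/-- `f` is a primitive of the locally integrable function `f'`. -/
structure Prim {E : Type} [NormedAddCommGroup E] [NormedSpace ℝ E] (f f' : ℝ → E) : Prop where
  int : ∀ a b, IntervalIntegrable f' volume a b
  ftc : ∀ a b, f b - f a = ∫ x in a..b, f' x

namespace Prim
variable {E F : Type} [NormedAddCommGroup E] [NormedSpace ℝ E] [NormedAddCommGroup F]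
  [NormedSpace ℝ F] {f f' g g' : ℝ → E}

theorem eq (h : Prim f f') (a : ℝ) : f = fun x => f a + ∫ t in a..x, f' t := by
  ext x; rw [← h.ftc]; abel

theorem cont (h : Prim f f') : Continuous f := by
  rw [h.eq 0]; exact continuous_const.add (intervalIntegral.continuous_primitive h.int 0)

theorem congr (h : Prim f f') (h1 : ∀ x, f x = g x) (h2 : ∀ x, f' x = g' x) : Prim g g' := by
  rwa [← funext h1, ← funext h2]

theorem add (h : Prim f f') (k : Prim g g') : Prim (fun x => f x + g x) fun x => f' x + g' x :=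
  ⟨fun a b => (h.int a b).add (k.int a b), fun a b => by
    rw [intervalIntegral.integral_add (h.int a b) (k.int a b), ← h.ftc, ← k.ftc]; abel⟩

theorem const (c : E) : Prim (fun _ => c) fun _ => 0 :=
  ⟨fun _ _ => intervalIntegrable_const, fun a b => by simp⟩

theorem sum {ι : Type} (s : Finset ι) {f f' : ι → ℝ → E} (h : ∀ i ∈ s, Prim (f i) (f' i)) :
    Prim (fun x => ∑ i ∈ s, f i x) fun x => ∑ i ∈ s, f' i x := by
  classical
  induction s using Finset.induction_on with
  | empty => simpa using const (0 : E)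
  | insert i s hi ih =>
    simp only [Finset.sum_insert hi]
    exact (h i (Finset.mem_insert_self _ _)).add (ih fun j hj => h j (Finset.mem_insert_of_mem hj))

theorem clm [CompleteSpace E] [CompleteSpace F] (h : Prim f f') (L : E →L[ℝ] F) :
    Prim (fun x => L (f x)) fun x => L (f' x) :=
  ⟨fun a b => ⟨L.integrable_comp (h.int a b).1, L.integrable_comp (h.int a b).2⟩, fun a b => by
    rw [L.intervalIntegral_comp_comm (h.int a b), ← h.ftc, map_sub]⟩

theorem ae_deriv [CompleteSpace E] (h : Prim f f') (a b : ℝ) :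
    ∀ᵐ x, x ∈ uIcc a b → HasDerivAt f (f' x) x := by
  filter_upwards [(h.int a b).ae_hasDerivAt_integral] with x hx hx'
  have := (hx hx' a left_mem_uIcc).const_add (f a)
  rwa [← h.eq a] at this

theorem ac {f f' : ℝ → ℝ} (h : Prim f f') (a b : ℝ) : AbsolutelyContinuousOnInterval f a b := by
  rw [h.eq a]
  exact (LipschitzWith.const (f a)).lipschitzOnWith.absolutelyContinuousOnInterval.add
    ((h.int a b).absolutelyContinuousOnInterval_intervalIntegral left_mem_uIcc)

theorem rmul {f f' g g' : ℝ → ℝ} (h : Prim f f') (k : Prim g g') :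
    Prim (fun x => f x * g x) fun x => f' x * g x + f x * g' x :=
  ⟨fun a b => ((h.int a b).mul_continuousOn k.cont.continuousOn).add
    ((k.int a b).continuousOn_mul h.cont.continuousOn), fun a b => by
    rw [← (h.ac a b).integral_deriv_mul_eq_sub (k.ac a b)]
    refine intervalIntegral.integral_congr_ae ?_
    filter_upwards [h.ae_deriv a b, k.ae_deriv a b] with x h1 h2 hx
    rw [(h1 (uIoc_subset_uIcc hx)).deriv, (h2 (uIoc_subset_uIcc hx)).deriv]⟩

theorem mul {f f' g g' : ℝ → ℂ} (h : Prim f f') (k : Prim g g') :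
    Prim (fun x => f x * g x) fun x => f' x * g x + f x * g' x := by
  have h1 := h.clm Complex.reCLM
  have h2 := h.clm Complex.imCLM
  have k1 := k.clm Complex.reCLM
  have k2 := k.clm Complex.imCLM
  have r := ((h1.rmul k1).add ((h2.rmul k2).clm (-ContinuousLinearMap.id ℝ ℝ))).clm
    Complex.ofRealCLM
  have i := (((h1.rmul k2).add (h2.rmul k1)).clm Complex.ofRealCLM).clm
    (ContinuousLinearMap.mul ℝ ℂ Complex.I)
  refine (r.add i).congr (fun x => ?_) fun x => ?_ <;> apply Complex.ext <;> simp <;> ring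

theorem star {f f' : ℝ → ℂ} (h : Prim f f') : Prim (fun x => star (f x)) fun x => star (f' x) :=
  h.clm (Complex.conjCLE : ℂ →L[ℝ] ℂ)

theorem bdd (h : Prim f f') (hi : Integrable f') (x : ℝ) : ‖f x‖ ≤ ‖f 0‖ + ∫ t, ‖f' t‖ := by
  have h1 : f x = f 0 + ∫ t in (0 : ℝ)..x, f' t := by rw [← h.ftc]; abel
  rw [h1]
  refine (norm_add_le _ _).trans (add_le_add le_rfl ?_)
  refine intervalIntegral.norm_integral_le_integral_norm_uIoc.trans ?_
  exact setIntegral_le_integral hi.norm (Eventually.of_forall fun t => norm_nonneg _)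

theorem integral_eq_zero (h : Prim f f') (h0 : Integrable f) (hi : Integrable f') :
    ∫ t, f' t = 0 := by
  have t1 : Tendsto f atTop (𝓝 (f 0 + ∫ t in Ioi 0, f' t)) := by
    rw [h.eq 0]
    simpa using (intervalIntegral_tendsto_integral_Ioi 0 hi.integrableOn tendsto_id).const_add (f 0)
  have t2 : Tendsto f atBot (𝓝 (f 0 - ∫ t in Iic 0, f' t)) := by
    refine ((intervalIntegral_tendsto_integral_Iic 0 hi.integrableOn tendsto_id).const_sub
      (f 0)).congr fun x => ?_
    rw [id, ← h.ftc]; abel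
  have e1 := IntegrableAtFilter.eq_zero_of_tendsto (h0.integrableAtFilter atTop) (fun s hs => by
    rcases mem_atTop_sets.1 hs with ⟨b, hb⟩
    rw [← top_le_iff, ← Real.volume_Ici (a := b)]
    exact measure_mono hb) t1
  have e2 := IntegrableAtFilter.eq_zero_of_tendsto (h0.integrableAtFilter atBot) (fun s hs => by
    rcases mem_atBot_sets.1 hs with ⟨b, hb⟩
    rw [← top_le_iff, ← Real.volume_Iic (a := b)]
    exact measure_mono hb) t2
  rw [← intervalIntegral.integral_Iic_add_Ioi (b := 0) hi.integrableOn hi.integrableOn,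
    ← sub_eq_zero.1 e2, e1]

end Prim

variable {l m n : Type} [Fintype l] [Fintype m] [Fintype n]

/-- Entrywise primitive. -/
def MPrim (A A' : ℝ → Matrix m n ℂ) : Prop := ∀ i j, Prim (fun x => A x i j) fun x => A' x i j

/-- Entrywise square integrable. -/
def ML2 (A : ℝ → Matrix m n ℂ) : Prop := ∀ i j, MemLp (fun x => A x i j) 2 volume

/-- Entrywise integrable. -/
def MInt (A : ℝ → Matrix m n ℂ) : Prop := ∀ i j, Integrable fun x => A x i j

/-- Entrywise integral. -/
noncomputable def mint (A : ℝ → Matrix m n ℂ) : Matrix m n ℂ := of fun i j => ∫ x, A x i j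

omit [Fintype l] [Fintype n] in
theorem MPrim.mul {A A' : ℝ → Matrix l m ℂ} {B B' : ℝ → Matrix m n ℂ} (h : MPrim A A')
    (k : MPrim B B') : MPrim (fun x => A x * B x) fun x => A' x * B x + A x * B' x := fun i j =>
  (Prim.sum Finset.univ fun s _ => (h i s).mul (k s j)).congr (fun x => (Matrix.mul_apply).symm)
    fun x => by simp [Matrix.mul_apply, Finset.sum_add_distrib]

omit [Fintype m] [Fintype n] in
theorem MPrim.ct {A A' : ℝ → Matrix m n ℂ} (h : MPrim A A') :
    MPrim (fun x => (A x)ᴴ) fun x => (A' x)ᴴ := fun i j => (h j i).star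

omit [Fintype m] [Fintype n] in
theorem MPrim.const (A : Matrix m n ℂ) : MPrim (fun _ => A) fun _ => 0 := fun i j =>
  Prim.const (A i j)

omit [Fintype m] [Fintype n] in
theorem MPrim.cont {A A' : ℝ → Matrix m n ℂ} (h : MPrim A A') : Continuous A :=
  continuous_matrix fun i j => (h i j).cont

theorem MPrim.rtr {A A' : ℝ → Matrix n n ℂ} (h : MPrim A A') :
    Prim (fun x => rtr (A x)) fun x => rtr (A' x) :=
  (Prim.sum Finset.univ fun i _ => h i i).clm Complex.reCLM

omit [Fintype m] [Fintype n] in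
theorem ML2.ct {A : ℝ → Matrix m n ℂ} (h : ML2 A) : ML2 fun x => (A x)ᴴ := fun i j => (h j i).star

omit [Fintype l] [Fintype n] in
theorem ML2.mul {A : ℝ → Matrix l m ℂ} {B : ℝ → Matrix m n ℂ} (h : ML2 A) (k : ML2 B) :
    MInt fun x => A x * B x := fun i j => by
  simp only [Matrix.mul_apply]
  exact integrable_finsetSum _ fun s _ => (h i s).integrable_mul (k s j)

omit [Fintype l] [Fintype n] in
theorem ML2.mul_const {A : ℝ → Matrix l m ℂ} (h : ML2 A) (B : Matrix m n ℂ) :
    ML2 fun x => A x * B := fun i j => by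
  simp only [Matrix.mul_apply]
  exact memLp_finsetSum _ fun s _ => (h i s).mul_const _

omit [Fintype l] [Fintype n] in
theorem MInt.mul_bdd {A : ℝ → Matrix l m ℂ} {B : ℝ → Matrix m n ℂ} (h : MInt A) (hB : Continuous B)
    {C : ℝ} (hC : ∀ x i j, ‖B x i j‖ ≤ C) : MInt fun x => A x * B x := fun i j => by
  simp only [Matrix.mul_apply]
  exact integrable_finsetSum _ fun s _ => (h i s).mul_bdd
    (hB.matrix_elem s j).aestronglyMeasurable (Eventually.of_forall fun x => hC x s j)

omit [Fintype m] [Fintype n] in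
theorem MInt.add {A B : ℝ → Matrix m n ℂ} (h : MInt A) (k : MInt B) : MInt fun x => A x + B x :=
  fun i j => (h i j).add (k i j)

theorem MInt.lin {A : ℝ → Matrix m n ℂ} (h : MInt A) (L : Matrix m n ℂ →ₗ[ℝ] ℝ) :
    Integrable (fun x => L (A x)) ∧ ∫ x, L (A x) = L (mint A) := by
  let L' : (m → n → ℂ) →L[ℝ] ℝ :=
    LinearMap.toContinuousLinearMap (L ∘ₗ (Matrix.ofLinearEquiv ℝ).toLinearMap)
  have h1 : ∀ i, Integrable fun x => (fun j => A x i j : n → ℂ) := fun i =>
    integrable_pi_iff.2 (h i)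
  have h2 : Integrable fun x => (fun i j => A x i j : m → n → ℂ) := integrable_pi_iff.2 h1
  refine ⟨L'.integrable_comp h2, (L'.integral_comp_comm h2).trans ?_⟩
  change L _ = _
  congr 1; ext i j
  change (∫ x, (fun i j => A x i j : m → n → ℂ)) i j = ∫ x, A x i j
  rw [eval_integral h1, eval_integral (h i)]

theorem MInt.rtr [DecidableEq n] {A : ℝ → Matrix n n ℂ} (h : MInt A) :
    Integrable fun x => rtr (A x) := (h.lin rtrL).1

theorem MInt.rtr_mul [DecidableEq n] {A : ℝ → Matrix n n ℂ} (h : MInt A) (B : Matrix n n ℂ) :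
    Integrable (fun x => P371.rtr (A x * B)) ∧ ∫ x, P371.rtr (A x * B) = P371.rtr (mint A * B) :=
  h.lin (rtrL ∘ₗ LinearMap.mulRight ℝ B)

theorem entry_le_rtr [DecidableEq n] {A : Matrix n n ℂ} (h : A.PosSemidef) (i j : n) :
    ‖A i j‖ ≤ rtr A := by
  obtain ⟨U, a, ha⟩ := exists_dec h.1
  have h0 := ha.psd_iff.1 h
  have h1 := rtr_star_mul A
  rw [h.1.eq, (ha.mul ha).rtr_eq] at h1
  have h2 : ‖A i j‖ ^ 2 ≤ ∑ j, ∑ i, ‖A i j‖ ^ 2 :=
    (Finset.single_le_sum (f := fun i => ‖A i j‖ ^ 2) (fun _ _ => sq_nonneg _)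
      (Finset.mem_univ i)).trans (Finset.single_le_sum (f := fun j => ∑ i, ‖A i j‖ ^ 2)
        (fun _ _ => Finset.sum_nonneg fun _ _ => sq_nonneg _) (Finset.mem_univ j))
  have h3 : ∑ i, a i * a i ≤ (∑ i, a i) ^ 2 := by
    rw [sq, Finset.sum_mul]
    exact Finset.sum_le_sum fun i _ => mul_le_mul_of_nonneg_left
      (Finset.single_le_sum (fun i _ => h0 i) (Finset.mem_univ i)) (h0 i)
  rw [ha.rtr_eq]
  exact abs_le_of_sq_le_sq' (by linarith) (Finset.sum_nonneg fun i _ => h0 i) |>.2

theorem le_rtr_one [DecidableEq n] {A : Matrix n n ℂ} (h : A.PosSemidef) :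
    (rtr A • (1 : Matrix n n ℂ) - A).PosSemidef := by
  obtain ⟨U, a, ha⟩ := exists_dec h.1
  have h0 := ha.psd_iff.1 h
  refine ((ha.const _).sub ha).psd_iff.2 fun i => sub_nonneg.2 ?_
  rw [ha.rtr_eq]
  exact Finset.single_le_sum (fun i _ => h0 i) (Finset.mem_univ i)

theorem rtr_mul_le [DecidableEq n] {A B : Matrix n n ℂ} (h : A.PosSemidef) (k : B.PosSemidef) :
    rtr (A * B) ≤ rtr A * rtr B := by
  have := rtr_mul_nonneg (le_rtr_one h) k
  rw [Matrix.sub_mul, rtr_sub, Matrix.smul_mul, Matrix.one_mul, rtr_smul] at this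
  linarith

theorem tail_le {f g : ℝ → ℝ} (hf : Integrable f) (hg : Integrable g) (h : ∀ x, f x ≤ g x)
    {a b : ℝ} (hab : a ≤ b) :
    (∫ x, f x) - ∫ x in a..b, f x ≤ (∫ x, g x) - ∫ x in a..b, g x := by
  have := setIntegral_le_integral (s := Ioc a b) (hg.sub hf)
    (Eventually.of_forall fun x => sub_nonneg.2 (h x))
  simp only [Pi.sub_apply] at this
  rw [integral_sub hg hf, integral_sub hg.integrableOn hf.integrableOn] at this
  rw [intervalIntegral.integral_of_le hab, intervalIntegral.integral_of_le hab]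
  linarith

theorem exists_tail {f : ℝ → ℝ} (hf : Integrable f) {η : ℝ} (hη : 0 < η) (R₀ : ℝ) :
    ∃ R, R₀ ≤ R ∧ (∫ x, f x) - ∫ x in -R..R, f x ≤ η := by
  have h := (intervalIntegral_tendsto_integral hf tendsto_neg_atTop_atBot tendsto_id).const_sub
    (∫ x, f x)
  rw [sub_self] at h
  obtain ⟨R, h1, h2⟩ := ((eventually_ge_atTop R₀).and (h.eventually (ge_mem_nhds hη))).exists
  exact ⟨R, h1, h2⟩

end Vale.Agent.P371
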