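import Vale.Agent.P371.Upper
import Vale.Agent.P371.Defs2

/-!
The optimal potential with one bound state.
-/

namespace Vale.Agent.P371

open Matrix Set Filter MeasureTheory Real
open scoped ComplexOrder Topology ENNReal

theorem continuous_sech (s : ℝ) : Continuous fun x : ℝ => cosh x ^ s :=
  continuous_cosh.rpow_const fun x => Or.inl (cosh_pos x).ne'

theorem integrable_sech {s : ℝ} (hs : 0 < s) : Integrable fun x : ℝ => cosh x ^ (-s) := by
  have key : ∀ x y : ℝ, exp y / 2 ≤ cosh x → ‖cosh x ^ (-s)‖ ≤ 2 ^ s * exp (-s * y) :=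
    fun x y h => by
      rw [Real.norm_of_nonneg (Real.rpow_nonneg (cosh_pos x).le _)]
      refine (Real.rpow_le_rpow_of_nonpos (by positivity) h (by linarith)).trans (le_of_eq ?_)
      rw [Real.div_rpow (exp_pos y).le (by norm_num), ← Real.exp_mul, Real.rpow_neg (by norm_num),
        mul_comm y]
      field_simp
  rw [← integrableOn_univ, ← Iic_union_Ioi (a := (0 : ℝ))]
  refine IntegrableOn.union ?_ ?_
  · refine ((integrableOn_exp_mul_Iic hs 0).const_mul (2 ^ s)).mono'
      (continuous_sech _).aestronglyMeasurable (Eventually.of_forall fun x => ?_)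
    simpa using key x (-x) (by rw [cosh_eq]; linarith [exp_pos x])
  · refine ((integrableOn_exp_mul_Ioi (neg_lt_zero.2 hs) 0).const_mul (2 ^ s)).mono'
      (continuous_sech _).aestronglyMeasurable (Eventually.of_forall fun x => ?_)
    exact key x x (by rw [cosh_eq]; linarith [exp_pos (-x)])

theorem hasDerivAt_tanh (x : ℝ) : HasDerivAt tanh (cosh x ^ (-2 : ℝ)) x := by
  have h := (hasDerivAt_sinh x).div (hasDerivAt_cosh x) (cosh_pos x).ne'
  rw [show tanh = sinh / cosh from funext fun y => tanh_eq_sinh_div_cosh y]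
  refine h.congr_deriv ?_
  rw [Real.rpow_neg (cosh_pos x).le, ← sq, ← sq, cosh_sq_sub_sinh_sq, Real.rpow_two, one_div]

theorem one_sub_tanh (x : ℝ) : 1 - tanh x * tanh x = cosh x ^ (-2 : ℝ) := by
  have := (cosh_pos x).ne'
  rw [Real.rpow_neg (cosh_pos x).le, Real.rpow_two, tanh_eq_sinh_div_cosh]
  field_simp
  exact cosh_sq_sub_sinh_sq x

theorem integral_sech (θ : ℝ) : ∫ x : ℝ, cosh x ^ (-2 * (1 + θ)) = cth θ := by
  have h := integral_image_eq_integral_abs_deriv_smul (s := univ) MeasurableSet.univ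
    (fun x _ => (hasDerivAt_tanh x).hasDerivWithinAt) tanh_injective.injOn
    fun t : ℝ => (1 - t * t) ^ θ
  rw [tanh_bijOn.image_eq, setIntegral_univ] at h
  rw [cth, intervalIntegral.integral_of_le (by norm_num), integral_Ioc_eq_integral_Ioo, h]
  congr 1; ext x
  rw [one_sub_tanh, abs_of_pos (Real.rpow_pos_of_pos (cosh_pos x) _), smul_eq_mul,
    ← Real.rpow_mul (cosh_pos x).le, ← Real.rpow_add (cosh_pos x)]
  congr 1; ring

theorem hasDerivAt_sech (θ x : ℝ) :
    HasDerivAt (fun x => cosh x ^ (-θ)) (-θ * tanh x * cosh x ^ (-θ)) x := by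
  refine ((hasDerivAt_cosh x).rpow_const (p := -θ) (Or.inl (cosh_pos x).ne')).congr_deriv ?_
  have := (cosh_pos x).ne'
  rw [Real.rpow_sub_one this, tanh_eq_sinh_div_cosh]; field_simp

theorem hasDerivAt_sech' (θ x : ℝ) : HasDerivAt (fun x => -θ * tanh x * cosh x ^ (-θ))
    ((θ ^ 2 - θ * (1 + θ) * cosh x ^ (-2 : ℝ)) * cosh x ^ (-θ)) x := by
  refine (((hasDerivAt_tanh x).const_mul (-θ)).mul (hasDerivAt_sech θ x)).congr_deriv ?_
  rw [← one_sub_tanh]; ring

theorem Prim.of_deriv {f f' : ℝ → ℝ} (h : ∀ x, HasDerivAt f (f' x) x) (hc : Continuous f') :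
    Prim (fun x => (f x : ℂ)) fun x => (f' x : ℂ) :=
  Prim.clm ⟨fun a b => hc.intervalIntegrable a b, fun a b =>
    (intervalIntegral.integral_eq_sub_of_hasDerivAt (fun x _ => h x)
      (hc.intervalIntegrable a b)).symm⟩ Complex.ofRealCLM

theorem memLp_sech {θ : ℝ} (hθ : 0 < θ) {g : ℝ → ℝ} (hg : Continuous g) {C : ℝ}
    (hC : ∀ x, |g x| ≤ C) : MemLp (fun x => ((g x * cosh x ^ (-θ) : ℝ) : ℂ)) 2 volume := by
  have h1 : MemLp (fun x : ℝ => cosh x ^ (-θ)) 2 volume := by
    rw [memLp_two_iff_integrable_sq (continuous_sech _).aestronglyMeasurable]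
    refine (integrable_sech (s := θ * 2) (by linarith)).congr (Eventually.of_forall fun x => ?_)
    simp only
    rw [← Real.rpow_two, ← Real.rpow_mul (cosh_pos x).le, neg_mul]
  refine h1.of_le_mul (c := C) (Complex.continuous_ofReal.comp
    (hg.mul (continuous_sech _))).aestronglyMeasurable (Eventually.of_forall fun x => ?_)
  rw [Complex.norm_real, norm_mul]
  exact mul_le_mul_of_nonneg_right (hC x) (norm_nonneg _)

theorem exists_optimal {θ : ℝ} (hθ : 0 < θ) {m : ℕ} (i : Fin m) :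
    ∃ (W : ℝ → Matrix (Fin m) (Fin m) ℂ) (ψ : ℝ → Fin m → ℂ), IsPotential (1 + θ) W ∧
      ¬ W =ᵐ[volume] 0 ∧ IsNegFamily W (fun _ : Fin 1 => -θ ^ 2) (fun _ => ψ) ∧
      ∫ x, trPow (1 + θ) (W x) = (θ * (1 + θ)) ^ (1 + θ) * cth θ := by
  have hp : 0 < θ * (1 + θ) := by positivity
  let w : ℝ → ℝ := fun x => θ * (1 + θ) * cosh x ^ (-2 : ℝ)
  have hw : Continuous w := continuous_const.mul (continuous_sech _)
  have hw0 : ∀ x, 0 < w x := fun x => mul_pos hp (Real.rpow_pos_of_pos (cosh_pos x) _)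
  have hw1 : ∀ x, w x ≤ θ * (1 + θ) := fun x => mul_le_of_le_one_right hp.le
    (Real.rpow_le_one_of_one_le_of_nonpos (one_le_cosh x) (by norm_num))
  have htr : ∀ x, trPow (1 + θ) (dg (Pi.single i (w x)))
      = (θ * (1 + θ)) ^ (1 + θ) * cosh x ^ (-2 * (1 + θ)) := fun x => by
    change rtr _ = _
    rw [((Dec.ofDg _).cfc _).rtr_eq, Finset.sum_eq_single i, Pi.single_eq_same,
      Real.mul_rpow hp.le (Real.rpow_nonneg (cosh_pos x).le _), ← Real.rpow_mul (cosh_pos x).le]
    · intro j _ hj; rw [Pi.single_eq_of_ne hj, Real.zero_rpow (by linarith)]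
    · simp
  have hI : ∫ x, trPow (1 + θ) (dg (Pi.single i (w x))) = (θ * (1 + θ)) ^ (1 + θ) * cth θ := by
    simp only [htr]; rw [integral_const_mul, integral_sech]
  have hJ : 0 < ∫ x : ℝ, cosh x ^ (-(θ + θ)) :=
    integral_pos_of_integrable_nonneg_nonzero (x := 0) (continuous_sech _)
      (integrable_sech (by linarith)) (fun x => Real.rpow_nonneg (cosh_pos x).le _) (by simp)
  obtain ⟨c, hc⟩ : ∃ c : ℝ, c * c * ∫ x : ℝ, cosh x ^ (-(θ + θ)) = 1 :=
    ⟨(√(∫ x : ℝ, cosh x ^ (-(θ + θ))))⁻¹, by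
      rw [← mul_inv, Real.mul_self_sqrt hJ.le, inv_mul_cancel₀ hJ.ne']⟩
  have ct : Continuous tanh := continuous_iff_continuousAt.2 fun x => (hasDerivAt_tanh x).continuousAt
  have P0 := Prim.of_deriv (fun x => (hasDerivAt_sech θ x).const_mul c)
    (continuous_const.mul ((continuous_const.mul ct).mul (continuous_sech _)))
  have P1 := Prim.of_deriv (fun x => (hasDerivAt_sech' θ x).const_mul c)
    (continuous_const.mul ((continuous_const.sub hw).mul (continuous_sech _)))
  have L0 := memLp_sech hθ (g := fun _ => c) continuous_const fun _ => le_rfl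
  have L1 := memLp_sech hθ (g := fun x => c * (-θ * tanh x)) (by fun_prop) (C := |c| * θ)
    fun x => by
      rw [abs_mul, abs_mul, abs_neg, abs_of_pos hθ]
      exact mul_le_mul_of_nonneg_left (mul_le_of_le_one_right hθ.le (abs_tanh_lt_one x).le)
        (abs_nonneg c)
  have L2 := memLp_sech hθ (g := fun x => c * w x) (by fun_prop) (C := |c| * (θ * (1 + θ)))
    fun x => by
      rw [abs_mul, abs_of_pos (hw0 x)]
      exact mul_le_mul_of_nonneg_left (hw1 x) (abs_nonneg c)
  simp only [mul_assoc c] at L1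
  have hH : IsH1 (fun x => Pi.single i ((c * cosh x ^ (-θ) : ℝ) : ℂ))
      fun x => Pi.single i ((c * (-θ * tanh x * cosh x ^ (-θ)) : ℝ) : ℂ) := by
    refine ⟨fun j => ?_, fun j => ?_, fun j a b => ?_⟩ <;> by_cases hj : j = i
    · subst hj; simpa only [Pi.single_eq_same] using L0
    · simp [Pi.single_eq_of_ne hj]
    · subst hj; simpa only [Pi.single_eq_same] using L1
    · simp [Pi.single_eq_of_ne hj]
    · subst hj; simpa only [Pi.single_eq_same] using P0.ftc a b
    · simp [Pi.single_eq_of_ne hj]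
  refine ⟨fun x => dg (Pi.single i (w x)), _, ⟨fun j k => ?_, fun x => dg_psd.2 fun j => ?_, ?_⟩,
    fun h0 => ?_, ⟨fun _ => neg_lt_zero.2 (pow_pos hθ 2), fun _ => ⟨_, hH, fun φ φ' hφ => ?_⟩,
      fun j k => ?_⟩, hI⟩
  · refine Continuous.measurable ?_
    by_cases h1 : j = k
    · subst h1
      by_cases h2 : j = i
      · subst h2; simpa [dg, Function.comp_def] using Complex.continuous_ofReal.comp hw
      · simpa [dg, Pi.single_eq_of_ne h2] using continuous_const
    · simpa [dg, diagonal_apply_ne _ h1] using continuous_const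
  · by_cases h2 : j = i
    · subst h2; simpa using (hw0 x).le
    · simp [Pi.single_eq_of_ne h2]
  · simp only [htr, neg_mul]
    exact (integrable_sech (by linarith)).const_mul _
  · obtain ⟨x, hx⟩ := h0.exists
    have := congrFun (congrFun hx i) i
    simp only [dg, diagonal_apply_eq, Pi.single_eq_same, Pi.zero_apply, Matrix.zero_apply,
      Complex.ofReal_eq_zero] at this
    exact (hw0 x).ne' this
  · have a0 := (hφ.memLp i).star.integrable_mul L0
    have a1 := (hφ.memLp' i).star.integrable_mul L1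
    have a2 := (hφ.memLp i).star.integrable_mul L2
    have a3 := (hφ.memLp i).star.integrable_mul L1
    have z := (((hφ.prim i).star.mul P1).congr (fun _ => rfl) (g' := fun x =>
      star (φ' x i) * ((c * (-θ * tanh x * cosh x ^ (-θ)) : ℝ) : ℂ)
        - star (φ x i) * ((c * w x * cosh x ^ (-θ) : ℝ) : ℂ)
        + ((θ ^ 2 : ℝ) : ℂ) * (star (φ x i) * ((c * cosh x ^ (-θ) : ℝ) : ℂ)))
      fun x => by simp only [w]; push_cast; ring).integral_eq_zero a3
        ((a1.sub a2).add (a0.const_mul _))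
    have e := (integral_add (a1.sub a2) (a0.const_mul ((θ ^ 2 : ℝ) : ℂ))).symm.trans z
    have e2 := integral_sub a1 a2
    simp only [Pi.sub_apply, Pi.mul_apply, Pi.star_apply] at e e2
    rw [e2, integral_const_mul] at e
    have e3 : ∀ x, dg (Pi.single i (w x)) *ᵥ Pi.single i ((c * cosh x ^ (-θ) : ℝ) : ℂ)
        = Pi.single i ((c * w x * cosh x ^ (-θ) : ℝ) : ℂ) := fun x => by
      ext j
      by_cases h2 : j = i
      · subst h2; simp [dg, mulVec_diagonal]; ring
      · simp [dg, mulVec_diagonal, Pi.single_eq_of_ne h2]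
    simp only [e3, dotProduct_single, Pi.star_apply]
    push_cast at e ⊢
    linear_combination e
  · rw [if_pos (Subsingleton.elim j k)]
    simp only [dotProduct_single, Pi.star_apply, Pi.single_eq_same, Complex.star_def,
      Complex.conj_ofReal, ← Complex.ofReal_mul]
    rw [integral_complex_ofReal, ← Complex.ofReal_one, ← hc, ← integral_const_mul]
    congr 2; ext x
    rw [neg_add, Real.rpow_add (cosh_pos x)]; ring

theorem optimal_ratio {θ : ℝ} (hθ : 0 < θ) : ENNReal.ofReal (oneConst (θ + 1 / 2))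
    = ENNReal.ofReal (|-θ ^ 2| ^ (θ + 1 / 2))
      / ENNReal.ofReal ((θ * (1 + θ)) ^ (1 + θ) * cth θ) := by
  have hc := cth_pos hθ
  have p : 0 < 1 + θ := by linarith
  have h1 := Real.rpow_pos_of_pos hθ θ
  have h2 := Real.rpow_pos_of_pos p (1 + θ)
  rw [← ENNReal.ofReal_div_of_pos (by positivity), oneConst_eq hθ, kap, abs_neg,
    abs_of_pos (by positivity), ← Real.rpow_two, ← Real.rpow_mul hθ.le, Real.mul_rpow hθ.le p.le,
    show 2 * (θ + 1 / 2) = θ + (1 + θ) by ring, Real.rpow_add hθ θ]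
  have h3 := Real.rpow_pos_of_pos hθ (1 + θ)
  congr 1; field_simp

theorem le_ltConst {γ : ℝ} (h1 : 1 / 2 < γ) {m : ℕ} (hm : 1 ≤ m) :
    ENNReal.ofReal (oneConst γ) ≤ ltConst γ m := by
  obtain ⟨θ, rfl⟩ : ∃ θ, γ = θ + 1 / 2 := ⟨γ - 1 / 2, by ring⟩
  have hθ : 0 < θ := by linarith
  obtain ⟨W, ψ, hW, h0, hF, hI⟩ := exists_optimal hθ (⟨0, hm⟩ : Fin m)
  rw [ltConst, show θ + 1 / 2 + 1 / 2 = 1 + θ by ring, optimal_ratio hθ, ← hI]
  refine le_iSup_of_le W (le_iSup_of_le hW (le_iSup_of_le h0 (ENNReal.div_le_div_right ?_ _)))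
  refine le_iSup_of_le 1 (le_iSup_of_le _ (le_iSup_of_le _ (le_iSup_of_le hF ?_)))
  simp

theorem oneBound_eq {γ : ℝ} (h1 : 1 / 2 < γ) (h2 : γ < 3 / 2) :
    oneBound γ = ENNReal.ofReal (oneConst γ) := by
  refine le_antisymm (le_trans ?_ (ltConst_le h1 h2 1)) ?_
  · refine iSup_le fun W => iSup_le fun hW => iSup_le fun h0 => iSup_le fun lam =>
      iSup_le fun ψ => iSup_le fun hF => ?_
    refine le_iSup_of_le W (le_iSup_of_le hW (le_iSup_of_le h0 (ENNReal.div_le_div_right ?_ _)))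
    refine le_iSup_of_le 1 (le_iSup_of_le _ (le_iSup_of_le _ (le_iSup_of_le hF ?_)))
    simp
  · obtain ⟨θ, rfl⟩ : ∃ θ, γ = θ + 1 / 2 := ⟨γ - 1 / 2, by ring⟩
    have hθ : 0 < θ := by linarith
    obtain ⟨W, ψ, hW, h0, hF, hI⟩ := exists_optimal hθ (0 : Fin 1)
    rw [oneBound, show θ + 1 / 2 + 1 / 2 = 1 + θ by ring, optimal_ratio hθ, ← hI]
    exact le_iSup_of_le W (le_iSup_of_le hW (le_iSup_of_le h0 (le_iSup_of_le _
      (le_iSup_of_le ψ (le_iSup_of_le hF le_rfl)))))

end Vale.Agent.P371
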