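import Vale.Agent.P371.Main
import Vale.Agent.P371.Const

/-!
The sharp upper bound for finite orthonormal families of eigenfunctions.
-/

namespace Vale.Agent.P371

open Matrix Set Filter MeasureTheory
open scoped ComplexOrder Topology ENNReal

variable {m N : ℕ}

theorem IsH1.prim {ψ ψ' : ℝ → Fin m → ℂ} (h : IsH1 ψ ψ') (i : Fin m) :
    Prim (fun x => ψ x i) fun x => ψ' x i :=
  ⟨fun a b => ((h.memLp' i).locallyIntegrable one_le_two).integrableOn_isCompact isCompact_uIcc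
    |>.intervalIntegrable, h.ftc i⟩

theorem IsH1.bdd {ψ ψ' : ℝ → Fin m → ℂ} (h : IsH1 ψ ψ') (i : Fin m) :
    ∃ C, ∀ x, ‖ψ x i‖ ≤ C := by
  have h1 := (h.prim i).star.mul (h.prim i)
  have h2 := ((h.memLp' i).star.integrable_mul (h.memLp i)).add
    ((h.memLp i).star.integrable_mul (h.memLp' i))
  obtain ⟨D, hD⟩ : ∃ D, ∀ x, ‖star (ψ x i) * ψ x i‖ ≤ D := ⟨_, h1.bdd h2⟩
  refine ⟨1 + D, fun x => ?_⟩
  have := hD x
  rw [norm_mul, norm_star] at this
  nlinarith [norm_nonneg (ψ x i), sq_nonneg (‖ψ x i‖ - 1)]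

theorem entry_le_trPow {p : ℝ} (hp : 1 ≤ p) {A : Matrix (Fin m) (Fin m) ℂ} (h : A.PosSemidef)
    (i j : Fin m) : ‖A i j‖ ≤ m + trPow p A := by
  obtain ⟨U, a, ha⟩ := exists_dec h.1
  have h0 := ha.psd_iff.1 h
  have : ∑ i, a i ≤ ∑ i, (1 + a i ^ p) := Finset.sum_le_sum fun i _ => by
    rcases le_total (a i) 1 with h1 | h1
    · linarith [Real.rpow_nonneg (h0 i) p]
    · linarith [Real.self_le_rpow_of_one_le h1 hp]
  refine (entry_le_rtr h i j).trans ?_
  change _ ≤ m + rtr _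
  rw [ha.rtr_eq, (ha.cfc _).rtr_eq]
  simpa [Finset.sum_add_distrib] using this

theorem integrable_form {p : ℝ} (hp : 1 ≤ p) {W : ℝ → Matrix (Fin m) (Fin m) ℂ}
    (hW : IsPotential p W) {φ φ' ψ ψ' : ℝ → Fin m → ℂ} (h : IsH1 φ φ') (k : IsH1 ψ ψ')
    (a b : Fin m) : Integrable fun x => star (φ x a) * W x a b * ψ x b := by
  obtain ⟨C, hC⟩ := h.bdd a
  obtain ⟨D, hD⟩ := k.bdd b
  have i1 := ((h.memLp a).integrable_mul (k.memLp b)).norm.const_mul (m : ℝ)
  refine (i1.add (hW.integrable.const_mul (C * D))).mono' ?_ (Eventually.of_forall fun x => ?_)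
  · exact ((h.memLp a).1.star.mul (hW.meas a b).aestronglyMeasurable).mul (k.memLp b).1
  have a1 := entry_le_trPow hp (hW.psd x) a b
  have a2 : 0 ≤ trPow p (W x) := by
    obtain ⟨U, w, hw⟩ := exists_dec (hW.psd x).1
    exact rtr_nonneg ((hw.cfc _).psd_iff.2 fun i => Real.rpow_nonneg (hw.psd_iff.1 (hW.psd x) i) _)
  have a3 := mul_le_mul (hC x) (hD x) (norm_nonneg _) ((norm_nonneg _).trans (hC x))
  have a4 := mul_le_mul_of_nonneg_left a1 (mul_nonneg (norm_nonneg (φ x a)) (norm_nonneg (ψ x b)))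
  have a5 := mul_le_mul_of_nonneg_right a3 a2
  simp only [Pi.add_apply, Pi.mul_apply, norm_mul, norm_star]
  nlinarith

theorem sum_bound {γ : ℝ} (h1 : 1 / 2 < γ) (h2 : γ < 3 / 2) {W : ℝ → Matrix (Fin m) (Fin m) ℂ}
    (hW : IsPotential (γ + 1 / 2) W) {lam : Fin N → ℝ} {ψ : Fin N → ℝ → Fin m → ℂ}
    (hF : IsNegFamily W lam ψ) :
    ∑ j, |lam j| ^ γ ≤ oneConst γ * ∫ x, trPow (γ + 1 / 2) (W x) := by
  obtain ⟨θ, rfl⟩ : ∃ θ, γ = θ + 1 / 2 := ⟨γ - 1 / 2, by ring⟩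
  have hθ : θ ∈ Ioo (0 : ℝ) 1 := ⟨by linarith, by linarith⟩
  rw [show θ + 1 / 2 + 1 / 2 = 1 + θ by ring] at hW ⊢
  choose ψ' hH hE using hF.eigen
  have hc := cth_pos hθ.1
  have e : ∀ (u v : Fin N → Fin m → ℂ) (j k : Fin N),
      ((of fun i j => u j i)ᴴ * (of fun i j => v j i) : Matrix (Fin N) (Fin N) ℂ) j k
        = star (u j) ⬝ᵥ v k := fun u v j k => by simp [Matrix.mul_apply, dotProduct]
  have e' : ∀ x (j k : Fin N), ((of fun i j => ψ j x i)ᴴ * W x * (of fun i j => ψ j x i) :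
      Matrix (Fin N) (Fin N) ℂ) j k = star (ψ j x) ⬝ᵥ (W x *ᵥ ψ k x) := fun x j k => by
    rw [Matrix.mul_assoc]; simp [Matrix.mul_apply, dotProduct, mulVec]
  have key := matrix_bound hθ (Ψ := fun x => of fun i j => ψ j x i)
    (Ψ' := fun x => of fun i j => ψ' j x i) (W := W) (lam := fun j => |lam j|)
    (fun j => abs_pos.2 (hF.neg j).ne) (fun i j => (hH j).prim i) (fun i j => (hH j).memLp i)
    (fun i j => (hH j).memLp' i) hW.psd hW.integrable (fun j k => ?_) ?_ ?_ hc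
  · rw [oneConst_eq hθ.1, div_mul_eq_mul_div, le_div_iff₀' hc]
    exact key
  · simp only [Matrix.mul_apply, Finset.sum_mul]
    exact integrable_finsetSum _ fun b _ => integrable_finsetSum _ fun a _ =>
      integrable_form (by linarith [hθ.1]) hW (hH j) (hH k) a b
  · ext j k
    simp only [mint, of_apply, e (fun j => ψ j _), hF.orth, one_apply]
  · ext j k
    have := hE k _ _ (hH j)
    simp only [mint, of_apply, e (fun j => ψ' j _), e', Matrix.sub_apply, dg, diagonal_apply]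
    rw [hF.orth] at this
    rw [sub_eq_iff_eq_add'.1 this]
    split_ifs with hjk
    · subst hjk; rw [abs_of_neg (hF.neg j)]; simp
    · simp

theorem oneConst_pos {γ : ℝ} (h1 : 1 / 2 < γ) : 0 < oneConst γ := by
  have g1 := Real.Gamma_pos_of_pos (show 0 < γ + 1 by linarith)
  have g2 := Real.Gamma_pos_of_pos (show 0 < γ + 3 / 2 by linarith)
  have g3 := Real.sqrt_pos.2 Real.pi_pos
  have := Real.rpow_pos_of_pos (div_pos (show 0 < γ - 1 / 2 by linarith)
    (show 0 < γ + 1 / 2 by linarith)) (γ - 1 / 2)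
  unfold oneConst clConst; positivity

theorem ltConst_le {γ : ℝ} (h1 : 1 / 2 < γ) (h2 : γ < 3 / 2) (m : ℕ) :
    ltConst γ m ≤ ENNReal.ofReal (oneConst γ) := by
  refine iSup_le fun W => iSup_le fun hW => iSup_le fun _ => ENNReal.div_le_of_le_mul ?_
  refine iSup_le fun N => iSup_le fun lam => iSup_le fun ψ => iSup_le fun hF => ?_
  rw [← ENNReal.ofReal_mul (oneConst_pos h1).le]
  exact ENNReal.ofReal_le_ofReal (sum_bound h1 h2 hW hF)

end Vale.Agent.P371
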